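import Vale.Agent.P236C.Data
import Vale.Agent.P236A.Basic

/-!
# P236 / C : the generators and the differential of the minimal resolution

The generator `(s, k)` is the `k`-th generator in cohomological degree `s`; `gw s k` is a quarter of its
internal degree (`255` for the unused indices).  `xi0` is the differential.
-/

noncomputable section

namespace Vale.Agent.P236C

open Vale.Agent.P236A

/-- the index type of the generators -/
abbrev Io (S : ℕ) : Type := Fin (S + 2) × Fin 64

/-- a quarter of the internal degree of a generator -/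
def gw (s k : ℕ) : ℕ := f8 (Gs.getD s 0) k

theorem gw_zero : gw 0 0 = 0 := by decide +kernel

/-- the generators -/
def Gam (S : ℕ) : Gens (Io S) where
  deg g := g.1
  wt g := 2 * gw g.1 g.2
  g0 := (0, 0)
  deg_g0 := rfl
  wt_g0 := by
    show 2 * gw 0 0 = 0
    rw [gw_zero]

@[simp] theorem Gam_deg (S : ℕ) (g : Io S) : (Gam S).deg g = g.1 := rfl
@[simp] theorem Gam_wt (S : ℕ) (g : Io S) : (Gam S).wt g = 2 * gw g.1 g.2 := rfl
@[simp] theorem Gam_g0 (S : ℕ) : (Gam S).g0 = (0, 0) := rfl

/-- the code of a monomial in the first four variables -/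
def enc (J : ℕ →₀ ℕ) : ℕ := J 0 + 243 * J 1 + 6561 * J 2 + 59049 * J 3

/-- the table has the entry `key` for the code `n` -/
def HasE (E O n key : ℕ) : Prop := ∃ i < entN E O n, entE E O n >>> (16 * i) % 8192 = key

open Classical in
/-- the coefficient given by the table -/
def cf (E O n k k' : ℕ) : ZMod 3 :=
  (if HasE E O n (k + 64 * k') then 1 else 0) - (if HasE E O n (k + 64 * k' + 4096) then 1 else 0)

/-- the coefficient of the generator `(s + 1, k')` in the value on `t ^ J (s, k)` -/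
def xi (s k k' : ℕ) (J : ℕ →₀ ℕ) : ZMod 3 :=
  if mz 3 J + (2 * gw s k : ℕ) = (2 * gw (s + 1) k' : ℕ) then
    cf (Es.getD s 0) (Os.getD s 0) (enc J) k k' else 0

/-- the differential of the minimal resolution -/
def xi0 (S : ℕ) : Mat (Io S) (ZMod 3) := fun g g' J =>
  if (g'.1 : ℕ) = g.1 + 1 then xi g.1 g.2 g'.2 J else 0

theorem xi0_deg {S : ℕ} {g g' : Io S} {J : ℕ →₀ ℕ} (h : xi0 S g g' J ≠ 0) :
    (Gam S).deg g' = (Gam S).deg g + 1 := by
  by_contra h1
  exact h (if_neg h1)

theorem xi0_wt {S : ℕ} {g g' : Io S} {J : ℕ →₀ ℕ} (h : xi0 S g g' J ≠ 0) :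
    mz 3 J + (Gam S).wt g = (Gam S).wt g' := by
  have h1 : (g'.1 : ℕ) = g.1 + 1 := xi0_deg h
  rw [xi0, if_pos h1] at h
  by_contra h2
  refine h (if_neg fun h3 => h2 ?_)
  rw [Gam_wt, Gam_wt, h1]
  exact h3

theorem gw_one_pos : ∀ k < 64, 0 < gw 1 k := by decide +kernel

theorem xi0_unit (S : ℕ) (g' : Io S) : xi0 S (Gam S).g0 g' 0 = 0 := by
  by_contra h
  have h1 := xi0_deg h
  have h2 := xi0_wt h
  rw [(Gam S).deg_g0, Gam_deg] at h1
  rw [(Gam S).wt_g0, Gam_wt, h1, mz, map_zero] at h2
  have h3 := gw_one_pos g'.2 g'.2.2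
  simp only [zero_add] at h2
  omega

end Vale.Agent.P236C
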