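import Vale.Agent.P236C.Snd
import Vale.Agent.P236C.A26x94
import Vale.Agent.P236C.A25x94
import Vale.Agent.P236C.A8x65
import Vale.Agent.P236C.A5x60
import Vale.Agent.P236C.A1x52
import Vale.Agent.P236C.A9x71

/-!
# P236 / C : the minimal resolution is exact in degrees `≤ 26` and weights `≤ 189`
-/

namespace Vale.Agent.P236C

open Vale.Agent.P236A MvPolynomial

theorem rA0x94 : ∀ T, 0 ≤ T → T < 0 + 95 → T ≤ 107 → RankOK 0 T (rT 0 T) :=
  run_spec cA0x94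

theorem rA1x52 : ∀ T, 0 ≤ T → T < 0 + 53 → T ≤ 107 → RankOK 1 T (rT 1 T) :=
  run_spec cA1x52

theorem rA1x94 : ∀ T, 53 ≤ T → T < 53 + 42 → T ≤ 107 → RankOK 1 T (rT 1 T) :=
  run_spec cA1x94

theorem rA2x60 : ∀ T, 0 ≤ T → T < 0 + 61 → T ≤ 107 → RankOK 2 T (rT 2 T) :=
  run_spec cA2x60

theorem rA2x79 : ∀ T, 61 ≤ T → T < 61 + 19 → T ≤ 107 → RankOK 2 T (rT 2 T) :=
  run_spec cA2x79

theorem rA2x85 : ∀ T, 80 ≤ T → T < 80 + 6 → T ≤ 107 → RankOK 2 T (rT 2 T) :=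
  run_spec cA2x85

theorem rA2x88 : ∀ T, 86 ≤ T → T < 86 + 3 → T ≤ 107 → RankOK 2 T (rT 2 T) :=
  run_spec cA2x88

theorem rA2x90 : ∀ T, 89 ≤ T → T < 89 + 2 → T ≤ 107 → RankOK 2 T (rT 2 T) :=
  run_spec cA2x90

theorem rA2x92 : ∀ T, 91 ≤ T → T < 91 + 2 → T ≤ 107 → RankOK 2 T (rT 2 T) :=
  run_spec cA2x92

theorem rA2x93 : ∀ T, 93 ≤ T → T < 93 + 1 → T ≤ 107 → RankOK 2 T (rT 2 T) :=
  run_spec cA2x93

theorem rA2x94 : ∀ T, 94 ≤ T → T < 94 + 1 → T ≤ 107 → RankOK 2 T (rT 2 T) :=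
  run_spec cA2x94

theorem rA3x63 : ∀ T, 0 ≤ T → T < 0 + 64 → T ≤ 107 → RankOK 3 T (rT 3 T) :=
  run_spec cA3x63

theorem rA3x79 : ∀ T, 64 ≤ T → T < 64 + 16 → T ≤ 107 → RankOK 3 T (rT 3 T) :=
  run_spec cA3x79

theorem rA3x84 : ∀ T, 80 ≤ T → T < 80 + 5 → T ≤ 107 → RankOK 3 T (rT 3 T) :=
  run_spec cA3x84

theorem rA3x87 : ∀ T, 85 ≤ T → T < 85 + 3 → T ≤ 107 → RankOK 3 T (rT 3 T) :=
  run_spec cA3x87

theorem rA3x89 : ∀ T, 88 ≤ T → T < 88 + 2 → T ≤ 107 → RankOK 3 T (rT 3 T) :=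
  run_spec cA3x89

theorem rA3x90 : ∀ T, 90 ≤ T → T < 90 + 1 → T ≤ 107 → RankOK 3 T (rT 3 T) :=
  run_spec cA3x90

theorem rA3x91 : ∀ T, 91 ≤ T → T < 91 + 1 → T ≤ 107 → RankOK 3 T (rT 3 T) :=
  run_spec cA3x91

theorem rA3x92 : ∀ T, 92 ≤ T → T < 92 + 1 → T ≤ 107 → RankOK 3 T (rT 3 T) :=
  run_spec cA3x92

theorem rA3x93 : ∀ T, 93 ≤ T → T < 93 + 1 → T ≤ 107 → RankOK 3 T (rT 3 T) :=
  run_spec cA3x93

theorem rA3x94 : ∀ T, 94 ≤ T → T < 94 + 1 → T ≤ 107 → RankOK 3 T (rT 3 T) :=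
  run_spec cA3x94

theorem rA4x72 : ∀ T, 0 ≤ T → T < 0 + 73 → T ≤ 107 → RankOK 4 T (rT 4 T) :=
  run_spec cA4x72

theorem rA4x80 : ∀ T, 73 ≤ T → T < 73 + 8 → T ≤ 107 → RankOK 4 T (rT 4 T) :=
  run_spec cA4x80

theorem rA4x84 : ∀ T, 81 ≤ T → T < 81 + 4 → T ≤ 107 → RankOK 4 T (rT 4 T) :=
  run_spec cA4x84

theorem rA4x86 : ∀ T, 85 ≤ T → T < 85 + 2 → T ≤ 107 → RankOK 4 T (rT 4 T) :=
  run_spec cA4x86

theorem rA4x88 : ∀ T, 87 ≤ T → T < 87 + 2 → T ≤ 107 → RankOK 4 T (rT 4 T) :=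
  run_spec cA4x88

theorem rA4x89 : ∀ T, 89 ≤ T → T < 89 + 1 → T ≤ 107 → RankOK 4 T (rT 4 T) :=
  run_spec cA4x89

theorem rA4x90 : ∀ T, 90 ≤ T → T < 90 + 1 → T ≤ 107 → RankOK 4 T (rT 4 T) :=
  run_spec cA4x90

theorem rA4x91 : ∀ T, 91 ≤ T → T < 91 + 1 → T ≤ 107 → RankOK 4 T (rT 4 T) :=
  run_spec cA4x91

theorem rA4x92 : ∀ T, 92 ≤ T → T < 92 + 1 → T ≤ 107 → RankOK 4 T (rT 4 T) :=
  run_spec cA4x92

theorem rA4x93 : ∀ T, 93 ≤ T → T < 93 + 1 → T ≤ 107 → RankOK 4 T (rT 4 T) :=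
  run_spec cA4x93

theorem rA4x94 : ∀ T, 94 ≤ T → T < 94 + 1 → T ≤ 107 → RankOK 4 T (rT 4 T) :=
  run_spec cA4x94

theorem rA5x60 : ∀ T, 0 ≤ T → T < 0 + 61 → T ≤ 107 → RankOK 5 T (rT 5 T) :=
  run_spec cA5x60

theorem rA5x80 : ∀ T, 61 ≤ T → T < 61 + 20 → T ≤ 107 → RankOK 5 T (rT 5 T) :=
  run_spec cA5x80

theorem rA5x85 : ∀ T, 81 ≤ T → T < 81 + 5 → T ≤ 107 → RankOK 5 T (rT 5 T) :=
  run_spec cA5x85

theorem rA5x88 : ∀ T, 86 ≤ T → T < 86 + 3 → T ≤ 107 → RankOK 5 T (rT 5 T) :=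
  run_spec cA5x88

theorem rA5x90 : ∀ T, 89 ≤ T → T < 89 + 2 → T ≤ 107 → RankOK 5 T (rT 5 T) :=
  run_spec cA5x90

theorem rA5x91 : ∀ T, 91 ≤ T → T < 91 + 1 → T ≤ 107 → RankOK 5 T (rT 5 T) :=
  run_spec cA5x91

theorem rA5x92 : ∀ T, 92 ≤ T → T < 92 + 1 → T ≤ 107 → RankOK 5 T (rT 5 T) :=
  run_spec cA5x92

theorem rA5x93 : ∀ T, 93 ≤ T → T < 93 + 1 → T ≤ 107 → RankOK 5 T (rT 5 T) :=
  run_spec cA5x93

theorem rA5x94 : ∀ T, 94 ≤ T → T < 94 + 1 → T ≤ 107 → RankOK 5 T (rT 5 T) :=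
  run_spec cA5x94

theorem rA6x67 : ∀ T, 0 ≤ T → T < 0 + 68 → T ≤ 107 → RankOK 6 T (rT 6 T) :=
  run_spec cA6x67

theorem rA6x84 : ∀ T, 68 ≤ T → T < 68 + 17 → T ≤ 107 → RankOK 6 T (rT 6 T) :=
  run_spec cA6x84

theorem rA6x89 : ∀ T, 85 ≤ T → T < 85 + 5 → T ≤ 107 → RankOK 6 T (rT 6 T) :=
  run_spec cA6x89

theorem rA6x92 : ∀ T, 90 ≤ T → T < 90 + 3 → T ≤ 107 → RankOK 6 T (rT 6 T) :=
  run_spec cA6x92

theorem rA6x94 : ∀ T, 93 ≤ T → T < 93 + 2 → T ≤ 107 → RankOK 6 T (rT 6 T) :=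
  run_spec cA6x94

theorem rA7x81 : ∀ T, 0 ≤ T → T < 0 + 82 → T ≤ 107 → RankOK 7 T (rT 7 T) :=
  run_spec cA7x81

theorem rA7x90 : ∀ T, 82 ≤ T → T < 82 + 9 → T ≤ 107 → RankOK 7 T (rT 7 T) :=
  run_spec cA7x90

theorem rA7x94 : ∀ T, 91 ≤ T → T < 91 + 4 → T ≤ 107 → RankOK 7 T (rT 7 T) :=
  run_spec cA7x94

theorem rA8x65 : ∀ T, 0 ≤ T → T < 0 + 66 → T ≤ 107 → RankOK 8 T (rT 8 T) :=
  run_spec cA8x65

theorem rA8x86 : ∀ T, 66 ≤ T → T < 66 + 21 → T ≤ 107 → RankOK 8 T (rT 8 T) :=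
  run_spec cA8x86

theorem rA8x91 : ∀ T, 87 ≤ T → T < 87 + 5 → T ≤ 107 → RankOK 8 T (rT 8 T) :=
  run_spec cA8x91

theorem rA8x94 : ∀ T, 92 ≤ T → T < 92 + 3 → T ≤ 107 → RankOK 8 T (rT 8 T) :=
  run_spec cA8x94

theorem rA9x71 : ∀ T, 0 ≤ T → T < 0 + 72 → T ≤ 107 → RankOK 9 T (rT 9 T) :=
  run_spec cA9x71

theorem rA9x89 : ∀ T, 72 ≤ T → T < 72 + 18 → T ≤ 107 → RankOK 9 T (rT 9 T) :=
  run_spec cA9x89

theorem rA9x94 : ∀ T, 90 ≤ T → T < 90 + 5 → T ≤ 107 → RankOK 9 T (rT 9 T) :=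
  run_spec cA9x94

theorem rA10x78 : ∀ T, 0 ≤ T → T < 0 + 79 → T ≤ 107 → RankOK 10 T (rT 10 T) :=
  run_spec cA10x78

theorem rA10x90 : ∀ T, 79 ≤ T → T < 79 + 12 → T ≤ 107 → RankOK 10 T (rT 10 T) :=
  run_spec cA10x90

theorem rA10x94 : ∀ T, 91 ≤ T → T < 91 + 4 → T ≤ 107 → RankOK 10 T (rT 10 T) :=
  run_spec cA10x94

theorem rA11x85 : ∀ T, 0 ≤ T → T < 0 + 86 → T ≤ 107 → RankOK 11 T (rT 11 T) :=
  run_spec cA11x85

theorem rA11x94 : ∀ T, 86 ≤ T → T < 86 + 9 → T ≤ 107 → RankOK 11 T (rT 11 T) :=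
  run_spec cA11x94

theorem rA12x82 : ∀ T, 0 ≤ T → T < 0 + 83 → T ≤ 107 → RankOK 12 T (rT 12 T) :=
  run_spec cA12x82

theorem rA12x94 : ∀ T, 83 ≤ T → T < 83 + 12 → T ≤ 107 → RankOK 12 T (rT 12 T) :=
  run_spec cA12x94

theorem rA13x94 : ∀ T, 0 ≤ T → T < 0 + 95 → T ≤ 107 → RankOK 13 T (rT 13 T) :=
  run_spec cA13x94

theorem rA14x94 : ∀ T, 0 ≤ T → T < 0 + 95 → T ≤ 107 → RankOK 14 T (rT 14 T) :=
  run_spec cA14x94

theorem rA15x94 : ∀ T, 0 ≤ T → T < 0 + 95 → T ≤ 107 → RankOK 15 T (rT 15 T) :=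
  run_spec cA15x94

theorem rA16x94 : ∀ T, 0 ≤ T → T < 0 + 95 → T ≤ 107 → RankOK 16 T (rT 16 T) :=
  run_spec cA16x94

theorem rA17x94 : ∀ T, 0 ≤ T → T < 0 + 95 → T ≤ 107 → RankOK 17 T (rT 17 T) :=
  run_spec cA17x94

theorem rA18x94 : ∀ T, 0 ≤ T → T < 0 + 95 → T ≤ 107 → RankOK 18 T (rT 18 T) :=
  run_spec cA18x94

theorem rA19x94 : ∀ T, 0 ≤ T → T < 0 + 95 → T ≤ 107 → RankOK 19 T (rT 19 T) :=
  run_spec cA19x94

theorem rA20x94 : ∀ T, 0 ≤ T → T < 0 + 95 → T ≤ 107 → RankOK 20 T (rT 20 T) :=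
  run_spec cA20x94

theorem rA21x94 : ∀ T, 0 ≤ T → T < 0 + 95 → T ≤ 107 → RankOK 21 T (rT 21 T) :=
  run_spec cA21x94

theorem rA22x94 : ∀ T, 0 ≤ T → T < 0 + 95 → T ≤ 107 → RankOK 22 T (rT 22 T) :=
  run_spec cA22x94

theorem rA23x94 : ∀ T, 0 ≤ T → T < 0 + 95 → T ≤ 107 → RankOK 23 T (rT 23 T) :=
  run_spec cA23x94

theorem rA24x94 : ∀ T, 0 ≤ T → T < 0 + 95 → T ≤ 107 → RankOK 24 T (rT 24 T) :=
  run_spec cA24x94

theorem rA25x94 : ∀ T, 0 ≤ T → T < 0 + 95 → T ≤ 107 → RankOK 25 T (rT 25 T) :=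
  run_spec cA25x94

theorem rA26x94 : ∀ T, 0 ≤ T → T < 0 + 95 → T ≤ 107 → RankOK 26 T (rT 26 T) :=
  run_spec cA26x94

theorem rankA0 (T : ℕ) (h : T ≤ 94) : RankOK 0 T (rT 0 T) := by
  exact rA0x94 T (by omega) (by omega) (by omega)

theorem rankA1 (T : ℕ) (h : T ≤ 94) : RankOK 1 T (rT 1 T) := by
  by_cases h52 : T ≤ 52
  · exact rA1x52 T (by omega) (by omega) (by omega)
  exact rA1x94 T (by omega) (by omega) (by omega)

theorem rankA2 (T : ℕ) (h : T ≤ 94) : RankOK 2 T (rT 2 T) := by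
  by_cases h60 : T ≤ 60
  · exact rA2x60 T (by omega) (by omega) (by omega)
  by_cases h79 : T ≤ 79
  · exact rA2x79 T (by omega) (by omega) (by omega)
  by_cases h85 : T ≤ 85
  · exact rA2x85 T (by omega) (by omega) (by omega)
  by_cases h88 : T ≤ 88
  · exact rA2x88 T (by omega) (by omega) (by omega)
  by_cases h90 : T ≤ 90
  · exact rA2x90 T (by omega) (by omega) (by omega)
  by_cases h92 : T ≤ 92
  · exact rA2x92 T (by omega) (by omega) (by omega)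
  by_cases h93 : T ≤ 93
  · exact rA2x93 T (by omega) (by omega) (by omega)
  exact rA2x94 T (by omega) (by omega) (by omega)

theorem rankA3 (T : ℕ) (h : T ≤ 94) : RankOK 3 T (rT 3 T) := by
  by_cases h63 : T ≤ 63
  · exact rA3x63 T (by omega) (by omega) (by omega)
  by_cases h79 : T ≤ 79
  · exact rA3x79 T (by omega) (by omega) (by omega)
  by_cases h84 : T ≤ 84
  · exact rA3x84 T (by omega) (by omega) (by omega)
  by_cases h87 : T ≤ 87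
  · exact rA3x87 T (by omega) (by omega) (by omega)
  by_cases h89 : T ≤ 89
  · exact rA3x89 T (by omega) (by omega) (by omega)
  by_cases h90 : T ≤ 90
  · exact rA3x90 T (by omega) (by omega) (by omega)
  by_cases h91 : T ≤ 91
  · exact rA3x91 T (by omega) (by omega) (by omega)
  by_cases h92 : T ≤ 92
  · exact rA3x92 T (by omega) (by omega) (by omega)
  by_cases h93 : T ≤ 93
  · exact rA3x93 T (by omega) (by omega) (by omega)
  exact rA3x94 T (by omega) (by omega) (by omega)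

theorem rankA4 (T : ℕ) (h : T ≤ 94) : RankOK 4 T (rT 4 T) := by
  by_cases h72 : T ≤ 72
  · exact rA4x72 T (by omega) (by omega) (by omega)
  by_cases h80 : T ≤ 80
  · exact rA4x80 T (by omega) (by omega) (by omega)
  by_cases h84 : T ≤ 84
  · exact rA4x84 T (by omega) (by omega) (by omega)
  by_cases h86 : T ≤ 86
  · exact rA4x86 T (by omega) (by omega) (by omega)
  by_cases h88 : T ≤ 88
  · exact rA4x88 T (by omega) (by omega) (by omega)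
  by_cases h89 : T ≤ 89
  · exact rA4x89 T (by omega) (by omega) (by omega)
  by_cases h90 : T ≤ 90
  · exact rA4x90 T (by omega) (by omega) (by omega)
  by_cases h91 : T ≤ 91
  · exact rA4x91 T (by omega) (by omega) (by omega)
  by_cases h92 : T ≤ 92
  · exact rA4x92 T (by omega) (by omega) (by omega)
  by_cases h93 : T ≤ 93
  · exact rA4x93 T (by omega) (by omega) (by omega)
  exact rA4x94 T (by omega) (by omega) (by omega)

theorem rankA5 (T : ℕ) (h : T ≤ 94) : RankOK 5 T (rT 5 T) := by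
  by_cases h60 : T ≤ 60
  · exact rA5x60 T (by omega) (by omega) (by omega)
  by_cases h80 : T ≤ 80
  · exact rA5x80 T (by omega) (by omega) (by omega)
  by_cases h85 : T ≤ 85
  · exact rA5x85 T (by omega) (by omega) (by omega)
  by_cases h88 : T ≤ 88
  · exact rA5x88 T (by omega) (by omega) (by omega)
  by_cases h90 : T ≤ 90
  · exact rA5x90 T (by omega) (by omega) (by omega)
  by_cases h91 : T ≤ 91
  · exact rA5x91 T (by omega) (by omega) (by omega)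
  by_cases h92 : T ≤ 92
  · exact rA5x92 T (by omega) (by omega) (by omega)
  by_cases h93 : T ≤ 93
  · exact rA5x93 T (by omega) (by omega) (by omega)
  exact rA5x94 T (by omega) (by omega) (by omega)

theorem rankA6 (T : ℕ) (h : T ≤ 94) : RankOK 6 T (rT 6 T) := by
  by_cases h67 : T ≤ 67
  · exact rA6x67 T (by omega) (by omega) (by omega)
  by_cases h84 : T ≤ 84
  · exact rA6x84 T (by omega) (by omega) (by omega)
  by_cases h89 : T ≤ 89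
  · exact rA6x89 T (by omega) (by omega) (by omega)
  by_cases h92 : T ≤ 92
  · exact rA6x92 T (by omega) (by omega) (by omega)
  exact rA6x94 T (by omega) (by omega) (by omega)

theorem rankA7 (T : ℕ) (h : T ≤ 94) : RankOK 7 T (rT 7 T) := by
  by_cases h81 : T ≤ 81
  · exact rA7x81 T (by omega) (by omega) (by omega)
  by_cases h90 : T ≤ 90
  · exact rA7x90 T (by omega) (by omega) (by omega)
  exact rA7x94 T (by omega) (by omega) (by omega)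

theorem rankA8 (T : ℕ) (h : T ≤ 94) : RankOK 8 T (rT 8 T) := by
  by_cases h65 : T ≤ 65
  · exact rA8x65 T (by omega) (by omega) (by omega)
  by_cases h86 : T ≤ 86
  · exact rA8x86 T (by omega) (by omega) (by omega)
  by_cases h91 : T ≤ 91
  · exact rA8x91 T (by omega) (by omega) (by omega)
  exact rA8x94 T (by omega) (by omega) (by omega)

theorem rankA9 (T : ℕ) (h : T ≤ 94) : RankOK 9 T (rT 9 T) := by
  by_cases h71 : T ≤ 71
  · exact rA9x71 T (by omega) (by omega) (by omega)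
  by_cases h89 : T ≤ 89
  · exact rA9x89 T (by omega) (by omega) (by omega)
  exact rA9x94 T (by omega) (by omega) (by omega)

theorem rankA10 (T : ℕ) (h : T ≤ 94) : RankOK 10 T (rT 10 T) := by
  by_cases h78 : T ≤ 78
  · exact rA10x78 T (by omega) (by omega) (by omega)
  by_cases h90 : T ≤ 90
  · exact rA10x90 T (by omega) (by omega) (by omega)
  exact rA10x94 T (by omega) (by omega) (by omega)

theorem rankA11 (T : ℕ) (h : T ≤ 94) : RankOK 11 T (rT 11 T) := by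
  by_cases h85 : T ≤ 85
  · exact rA11x85 T (by omega) (by omega) (by omega)
  exact rA11x94 T (by omega) (by omega) (by omega)

theorem rankA12 (T : ℕ) (h : T ≤ 94) : RankOK 12 T (rT 12 T) := by
  by_cases h82 : T ≤ 82
  · exact rA12x82 T (by omega) (by omega) (by omega)
  exact rA12x94 T (by omega) (by omega) (by omega)

theorem rankA13 (T : ℕ) (h : T ≤ 94) : RankOK 13 T (rT 13 T) := by
  exact rA13x94 T (by omega) (by omega) (by omega)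

theorem rankA14 (T : ℕ) (h : T ≤ 94) : RankOK 14 T (rT 14 T) := by
  exact rA14x94 T (by omega) (by omega) (by omega)

theorem rankA15 (T : ℕ) (h : T ≤ 94) : RankOK 15 T (rT 15 T) := by
  exact rA15x94 T (by omega) (by omega) (by omega)

theorem rankA16 (T : ℕ) (h : T ≤ 94) : RankOK 16 T (rT 16 T) := by
  exact rA16x94 T (by omega) (by omega) (by omega)

theorem rankA17 (T : ℕ) (h : T ≤ 94) : RankOK 17 T (rT 17 T) := by
  exact rA17x94 T (by omega) (by omega) (by omega)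

theorem rankA18 (T : ℕ) (h : T ≤ 94) : RankOK 18 T (rT 18 T) := by
  exact rA18x94 T (by omega) (by omega) (by omega)

theorem rankA19 (T : ℕ) (h : T ≤ 94) : RankOK 19 T (rT 19 T) := by
  exact rA19x94 T (by omega) (by omega) (by omega)

theorem rankA20 (T : ℕ) (h : T ≤ 94) : RankOK 20 T (rT 20 T) := by
  exact rA20x94 T (by omega) (by omega) (by omega)

theorem rankA21 (T : ℕ) (h : T ≤ 94) : RankOK 21 T (rT 21 T) := by
  exact rA21x94 T (by omega) (by omega) (by omega)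

theorem rankA22 (T : ℕ) (h : T ≤ 94) : RankOK 22 T (rT 22 T) := by
  exact rA22x94 T (by omega) (by omega) (by omega)

theorem rankA23 (T : ℕ) (h : T ≤ 94) : RankOK 23 T (rT 23 T) := by
  exact rA23x94 T (by omega) (by omega) (by omega)

theorem rankA24 (T : ℕ) (h : T ≤ 94) : RankOK 24 T (rT 24 T) := by
  exact rA24x94 T (by omega) (by omega) (by omega)

theorem rankA25 (T : ℕ) (h : T ≤ 94) : RankOK 25 T (rT 25 T) := by
  exact rA25x94 T (by omega) (by omega) (by omega)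

theorem rankA26 (T : ℕ) (h : T ≤ 94) : RankOK 26 T (rT 26 T) := by
  exact rA26x94 T (by omega) (by omega) (by omega)

theorem rankA (s : ℕ) (hs : s ≤ 26) (T : ℕ) (h : T ≤ 94) : RankOK s T (rT s T) := by
  interval_cases s
  · exact rankA0 T h
  · exact rankA1 T h
  · exact rankA2 T h
  · exact rankA3 T h
  · exact rankA4 T h
  · exact rankA5 T h
  · exact rankA6 T h
  · exact rankA7 T h
  · exact rankA8 T h
  · exact rankA9 T h
  · exact rankA10 T h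
  · exact rankA11 T h
  · exact rankA12 T h
  · exact rankA13 T h
  · exact rankA14 T h
  · exact rankA15 T h
  · exact rankA16 T h
  · exact rankA17 T h
  · exact rankA18 T h
  · exact rankA19 T h
  · exact rankA20 T h
  · exact rankA21 T h
  · exact rankA22 T h
  · exact rankA23 T h
  · exact rankA24 T h
  · exact rankA25 T h
  · exact rankA26 T h

/-- **exactness of the minimal resolution** -/
theorem exactP {S T0 : ℕ} (hS : S ≤ 26) (hT : T0 ≤ 94) (h : SqP S (2 * T0 + 1)) :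
    ExactP 3 (Gam S) (xi0 S) S (2 * T0 + 1) :=
  exactStmt S T0 hS (by omega) (fun s hs T h => rankA s (hs.trans hS) T (h.trans hT)) h

theorem ExactP_mono {ι : Type} [Fintype ι] [DecidableEq ι] {Γ : Gens ι} {ξ : Mat ι (ZMod 3)} {S : ℕ}
    {N N' : ℤ} (h : ExactP 3 Γ ξ S N) (hN : N' ≤ N) : ExactP 3 Γ ξ S N' :=
  ⟨fun w y hw => h.zero w y (hw.trans hN), fun s w y hs hw => h.succ s w y hs (hw.trans hN)⟩

theorem sqIn_succ {S T0 : ℕ} {k : Type} [CommRing k] {δ : Mat (Io S) (Av k)}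
    {𝔞 : ℕ → Ideal (Av k)} (h : SqIn 3 (Gam S) δ 𝔞 (2 * T0)) :
    SqIn 3 (Gam S) δ 𝔞 (2 * T0 + 1) := fun g g'' J hJ => h g g'' J (by
  obtain ⟨m, hm⟩ := mz_even J
  rw [hm, Gam_wt] at hJ ⊢
  push_cast at hJ ⊢
  omega)

/-- **exactness**, for a lift whose square lies in ideals without units -/
theorem exactP_of_sqIn {S T0 : ℕ} (hS : S ≤ 26) (hT : T0 ≤ 94) {k : Type} [CommRing k]
    (red : k →+* ZMod 3) {δ : Mat (Io S) (Av k)} {𝔞 : ℕ → Ideal (Av k)}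
    (hδ : bar 3 red δ = xi0 S) (h : SqIn 3 (Gam S) δ 𝔞 (2 * T0))
    (h𝔞 : ∀ s, ∀ a ∈ 𝔞 s, red (constantCoeff a) = 0) :
    ExactP 3 (Gam S) (bar 3 red δ) S (2 * T0) := by
  rw [hδ]
  exact ExactP_mono (exactP hS hT (sqStmt S _ k red δ 𝔞 hδ (sqIn_succ h) h𝔞)) (by omega)

end Vale.Agent.P236C
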