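import Vale.Agent.P236C.Spec

/-!
# P236 / C : bit lemmas
-/

noncomputable section

namespace Vale.Agent.P236C

theorem land_eq (a b : ℕ) : Nat.land a b = a &&& b := rfl
theorem lor_eq (a b : ℕ) : Nat.lor a b = a ||| b := rfl
theorem xor_eq (a b : ℕ) : Nat.xor a b = a ^^^ b := rfl
theorem shl_eq (a b : ℕ) : Nat.shiftLeft a b = a <<< b := rfl
theorem shr_eq (a b : ℕ) : Nat.shiftRight a b = a >>> b := rfl
theorem div_eq (a b : ℕ) : Nat.div a b = a / b := rfl
theorem mod_eq (a b : ℕ) : Nat.mod a b = a % b := rfl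

theorem frc_eq {α : Type} (x : ℕ) (k : ℕ → α) : frc x k = k x := by
  cases x <;> rfl

theorem allLt_spec {n : ℕ} {f : ℕ → Bool} (h : allLt n f = true) : ∀ i < n, f i = true := by
  induction n with
  | zero => intro i hi; omega
  | succ n ih =>
    have h1 : (Bool.rec false (allLt n f) (f n) : Bool) = true := h
    cases hf : f n with
    | false => rw [hf] at h1; exact absurd h1 (by simp)
    | true =>
      rw [hf] at h1
      intro i hi
      rcases Nat.lt_succ_iff_lt_or_eq.1 hi with h2 | rfl
      · exact ih h1 i h2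
      · exact hf

theorem rec_false {b c : Bool} (h : (Bool.rec (motive := fun _ => Bool) false c b : Bool) = true) :
    b = true ∧ c = true := by
  cases b with
  | false => exact absurd h (by simp)
  | true => exact ⟨rfl, h⟩

theorem ones_eq (n : ℕ) : ones n = 2 ^ n - 1 := by
  rw [ones, shl_eq, Nat.one_shiftLeft]
  rfl

theorem testBit_ones (n p : ℕ) : (ones n).testBit p = decide (p < n) := by
  rw [ones_eq, Nat.testBit_two_pow_sub_one]

theorem land_ones (x n : ℕ) : x &&& ones n = x % 2 ^ n := by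
  rw [ones_eq, Nat.and_two_pow_sub_one_eq_mod]

theorem land_ones_lt (x n : ℕ) : x &&& ones n < 2 ^ n := by
  rw [land_ones]
  exact Nat.mod_lt _ (Nat.two_pow_pos n)

theorem beq_bit (x j : ℕ) : Nat.beq (Nat.land (Nat.shiftRight x j) 1) 1 = x.testBit j := by
  rw [land_eq, shr_eq, Nat.and_one_is_mod, Nat.testBit, Nat.one_and_eq_mod_two]
  rcases Nat.mod_two_eq_zero_or_one (x >>> j) with h | h <;> rw [h] <;> rfl

theorem cd_zero {A B p : ℕ} (hA : A.testBit p = false) (hB : B.testBit p = false) : Cd A B p 0 :=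
  ⟨hA.trans (by decide), hB.trans (by decide)⟩

theorem Cd.neg {A B p : ℕ} {c : ZMod 3} (h : Cd A B p c) : Cd B A p (-c) := by
  refine ⟨h.2.trans ?_, h.1.trans ?_⟩ <;> clear h <;> revert c <;> decide

theorem Cd.congr {A B p A' B' p' : ℕ} {c : ZMod 3} (h : Cd A B p c)
    (hA : A'.testBit p' = A.testBit p) (hB : B'.testBit p' = B.testBit p) : Cd A' B' p' c :=
  ⟨hA.trans h.1, hB.trans h.2⟩

theorem cd_ad {a b c d p : ℕ} {x y : ZMod 3} (h : Cd a b p x) (h' : Cd c d p y) :
    Cd (ad a b c d).1 (ad a b c d).2 p (x + y) := by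
  constructor
  · show ((b ||| d) ^^^ ((a ||| d) ^^^ (b ||| c))).testBit p = _
    simp only [Nat.testBit_xor, Nat.testBit_or, h.1, h.2, h'.1, h'.2]
    clear h h'
    revert x y
    decide
  · show ((a ||| c) ^^^ ((a ||| d) ^^^ (b ||| c))).testBit p = _
    simp only [Nat.testBit_xor, Nat.testBit_or, h.1, h.2, h'.1, h'.2]
    clear h h'
    revert x y
    decide

/-- the recursive form of `rep` -/
def repS (w : ℕ) : ℕ → ℕ
  | 0 => 0
  | r + 1 => 2 ^ w * repS w r + 1

theorem ones_mul_repS (w r : ℕ) : (2 ^ w - 1) * repS w r + 1 = 2 ^ (w * r) := by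
  induction r with
  | zero => simp [repS]
  | succ r ih =>
    obtain ⟨u, hu⟩ : ∃ u, 2 ^ w = u + 1 := ⟨2 ^ w - 1, by have := Nat.two_pow_pos w; omega⟩
    rw [Nat.mul_succ, pow_add, ← ih, repS, hu, Nat.add_sub_cancel]
    ring

theorem rep_eq {w : ℕ} (hw : 0 < w) (r : ℕ) : rep w r = repS w r := by
  have h : 0 < 2 ^ w - 1 := by
    have := Nat.one_lt_two_pow (Nat.pos_iff_ne_zero.1 hw)
    omega
  rw [rep, div_eq, ones_eq, ones_eq, Nat.mul_eq, ← ones_mul_repS, Nat.add_sub_cancel,
    Nat.mul_div_cancel_left _ h]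

theorem testBit_rep {w p : ℕ} (hp : p < w) (r i : ℕ) :
    (rep w r).testBit (w * i + p) = decide (i < r ∧ p = 0) := by
  rw [rep_eq (by omega)]
  induction r generalizing i with
  | zero => simp [repS]
  | succ r ih =>
    rw [repS, Nat.testBit_two_pow_mul_add _ (Nat.one_lt_two_pow (by omega))]
    cases i with
    | zero =>
      rw [Nat.mul_zero, Nat.zero_add, if_pos hp]
      cases p <;> simp [Nat.testBit_succ]
    | succ i =>
      rw [if_neg (by rw [Nat.mul_succ]; omega),
        show w * (i + 1) + p - w = w * i + p by rw [Nat.mul_succ]; omega, ih]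
      simp

theorem testBit_mul_lane {w a p : ℕ} (ha : a < 2 ^ w) (hp : p < w) (i : ℕ) {c : ℕ}
    (hc : ∀ j q, 0 < q → q < w → c.testBit (w * j + q) = false) :
    (c * a).testBit (w * i + p) = (c.testBit (w * i) && a.testBit p) := by
  induction i generalizing c with
  | zero =>
    have h1 : c % 2 ^ w = (c.testBit 0).toNat := by
      apply Nat.eq_of_testBit_eq
      intro q
      rw [Nat.testBit_mod_two_pow, Nat.testBit_bool_toNat]
      by_cases hq : q = 0
      · subst hq
        simp [show 0 < w by omega]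
      · by_cases hq' : q < w
        · have := hc 0 q (by omega) hq'
          rw [Nat.mul_zero, Nat.zero_add] at this
          simp [this, hq]
        · simp [hq, hq']
    have h2 : c * a = 2 ^ w * (c / 2 ^ w * a) + (c.testBit 0).toNat * a := by
      conv_lhs => rw [← Nat.div_add_mod c (2 ^ w), h1]
      ring
    have h3 : (c.testBit 0).toNat * a < 2 ^ w := by
      cases c.testBit 0 <;> simp [ha]
    rw [h2, Nat.testBit_two_pow_mul_add _ h3, Nat.mul_zero, Nat.zero_add, if_pos hp]
    cases c.testBit 0 <;> simp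
  | succ i ih =>
    have h1 : c % 2 ^ w = (c.testBit 0).toNat := by
      apply Nat.eq_of_testBit_eq
      intro q
      rw [Nat.testBit_mod_two_pow, Nat.testBit_bool_toNat]
      by_cases hq : q = 0
      · subst hq
        simp [show 0 < w by omega]
      · by_cases hq' : q < w
        · have := hc 0 q (by omega) hq'
          rw [Nat.mul_zero, Nat.zero_add] at this
          simp [this, hq]
        · simp [hq, hq']
    have h2 : c * a = 2 ^ w * (c / 2 ^ w * a) + (c.testBit 0).toNat * a := by
      conv_lhs => rw [← Nat.div_add_mod c (2 ^ w), h1]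
      ring
    have h3 : (c.testBit 0).toNat * a < 2 ^ w := by
      cases c.testBit 0 <;> simp [ha]
    rw [h2, Nat.testBit_two_pow_mul_add _ h3, if_neg (by rw [Nat.mul_succ]; omega),
      show w * (i + 1) + p - w = w * i + p by rw [Nat.mul_succ]; omega, ih,
      Nat.testBit_div_two_pow, Nat.mul_succ]
    intro j q h h'
    rw [Nat.testBit_div_two_pow, show w * j + q + w = w * (j + 1) + q by ring]
    exact hc _ _ h h'

theorem testBit_rep_mul {w a p : ℕ} (ha : a < 2 ^ w) (hp : p < w) (x r i : ℕ) :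
    ((x &&& rep w r) * a).testBit (w * i + p) =
      (x.testBit (w * i) && decide (i < r) && a.testBit p) := by
  rw [testBit_mul_lane ha hp, Nat.testBit_and]
  · have := testBit_rep (w := w) (p := 0) (by omega) r i
    rw [Nat.add_zero] at this
    rw [this]
    simp
  · intro j q h h'
    rw [Nat.testBit_and, testBit_rep h']
    simp [Nat.pos_iff_ne_zero.1 h]

theorem testBit_lm {W k p : ℕ} (hk : k < 64) (hp : p < W) (c : ℕ) :
    (lm W c).testBit (W * k + p) = decide (c ≤ p) := by
  have h : lm W c = rep W 64 * (2 ^ W - 2 ^ c) := by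
    rw [lm, shl_eq, shl_eq, Nat.one_shiftLeft, Nat.one_shiftLeft]
    rfl
  have h0 := testBit_rep (w := W) (p := 0) (by omega) 64 k
  rw [Nat.add_zero] at h0
  rw [h, testBit_mul_lane (by have := Nat.two_pow_pos c; have := Nat.two_pow_pos W; omega) hp, h0]
  · by_cases hc : c ≤ W
    · rw [show 2 ^ W - 2 ^ c = 2 ^ c * (2 ^ (W - c) - 1) by
        rw [Nat.mul_sub, ← pow_add, Nat.add_sub_cancel' hc, Nat.mul_one], Nat.testBit_two_pow_mul,
        Nat.testBit_two_pow_sub_one]
      by_cases h1 : c ≤ p
      · simp [hk, h1, show p - c < W - c by omega]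
      · simp [h1]
    · rw [Nat.sub_eq_zero_of_le (Nat.pow_le_pow_right (by omega) (by omega))]
      simp [show ¬ c ≤ p by omega]
  · intro j q h1 h2
    rw [testBit_rep h2]
    simp [Nat.pos_iff_ne_zero.1 h1]

theorem testBit_sh {W k p : ℕ} (hk : k < 64) (hp : p < W) (c x : ℕ) :
    (sh W c x).testBit (W * k + p) = (decide (c ≤ p) && x.testBit (W * k + (p - c))) := by
  rw [sh, land_eq, shl_eq, Nat.testBit_and, testBit_lm hk hp, Nat.testBit_shiftLeft]
  by_cases h : c ≤ p
  · simp [h, show c ≤ W * k + p by omega, show W * k + p - c = W * k + (p - c) by omega]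
  · simp [h]

end Vale.Agent.P236C
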