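import Vale.Agent.P236C.Shear

/-!
# P236 / C : soundness of the substitution steps
-/

noncomputable section

namespace Vale.Agent.P236C

open Vale.Agent.P236A Vale.Agent.P236B MvPolynomial Finsupp

/-- the degree of a monomial in four variables -/
def tw (J : ℕ →₀ ℕ) : ℕ := J 0 + 4 * J 1 + 13 * J 2 + 40 * J 3

/-- the monomials with a faithful code -/
def Val (J : ℕ →₀ ℕ) : Prop := (∀ i, 4 ≤ i → J i = 0) ∧ tw J ≤ 107

theorem wtc_eq (n : ℕ) :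
    wtc n = n % 243 + 4 * (n / 243 % 27) + (13 * (n / 6561 % 9) + 40 * (n / 59049)) := rfl

theorem Val.le {J : ℕ →₀ ℕ} (h : Val J) : J 0 ≤ 107 ∧ J 1 ≤ 26 ∧ J 2 ≤ 8 ∧ J 3 ≤ 2 := by
  have h2 := h.2
  unfold tw at h2
  omega

theorem enc_div {J : ℕ →₀ ℕ} (h : Val J) : enc J % 243 = J 0 ∧
    enc J / 243 = J 1 + 27 * J 2 + 243 * J 3 ∧ enc J / 6561 = J 2 + 9 * J 3 ∧
    enc J / 59049 = J 3 := by
  obtain ⟨h0, h1, h2, h3⟩ := h.le
  have e1 : enc J / 243 = J 1 + 27 * J 2 + 243 * J 3 := by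
    unfold enc
    omega
  have e2 : enc J / 6561 = J 2 + 9 * J 3 := by
    rw [← Nat.div_div_eq_div_mul _ 243 27, e1]
    omega
  refine ⟨?_, e1, e2, ?_⟩
  · unfold enc
    omega
  · rw [← Nat.div_div_eq_div_mul _ 6561 9, e2]
    omega

theorem wtc_enc {J : ℕ →₀ ℕ} (h : Val J) : wtc (enc J) = tw J := by
  obtain ⟨h0, h1, h2, h3⟩ := h.le
  obtain ⟨e0, e1, e2, e3⟩ := enc_div h
  rw [wtc_eq, e0, e1, e2, e3, tw]
  omega

theorem enc_digit {J : ℕ →₀ ℕ} (h : Val J) :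
    (enc J / 59049 % 3 = J 3 / 3 ^ 0 % 3) ∧
    (enc J / 6561 % 3 = J 2 / 3 ^ 0 % 3 ∧ enc J / 19683 % 3 = J 2 / 3 ^ 1 % 3) ∧
    (enc J / 243 % 3 = J 1 / 3 ^ 0 % 3 ∧ enc J / 729 % 3 = J 1 / 3 ^ 1 % 3 ∧
      enc J / 2187 % 3 = J 1 / 3 ^ 2 % 3) ∧
    (enc J / 1 % 3 = J 0 / 3 ^ 0 % 3 ∧ enc J / 3 % 3 = J 0 / 3 ^ 1 % 3 ∧
      enc J / 9 % 3 = J 0 / 3 ^ 2 % 3 ∧ enc J / 27 % 3 = J 0 / 3 ^ 3 % 3 ∧
      enc J / 81 % 3 = J 0 / 3 ^ 4 % 3) := by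
  obtain ⟨e0, e1, e2, e3⟩ := enc_div h
  rw [← Nat.div_div_eq_div_mul _ 6561 3, ← Nat.div_div_eq_div_mul _ 243 3,
    ← Nat.div_div_eq_div_mul _ 243 9, e1, e2, e3, ← e0]
  generalize enc J = n
  norm_num
  omega

theorem mz_eq {J : ℕ →₀ ℕ} (h : ∀ i, 4 ≤ i → J i = 0) : mz 3 J = (2 * tw J : ℕ) := by
  have h1 : J = single 0 (J 0) + single 1 (J 1) + single 2 (J 2) + single 3 (J 3) := by
    ext i
    simp only [Finsupp.add_apply, single_apply]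
    rcases i with _ | _ | _ | _ | i
    · simp
    · simp
    · simp
    · simp
    · simp [h (i + 4) (by omega)]
  rw [mz, tw]
  conv_lhs => rw [h1]
  simp only [map_add, weight_single, wz, nsmul_eq_mul]
  push_cast
  ring

/-- the numbers `R` represent the polynomials `F` -/
def Inv' (W CT : ℕ) (R : ℕ → ℕ × ℕ) (F : ℕ → (ℕ →₀ ℕ) → Zp) : Prop :=
  ∀ J, Val J → ∀ k < 64, k < f8 CT (tw J) → ∀ p < W,
    Cd (R (enc J)).1 (R (enc J)).2 (W * k + p) ((F k J).coeff p)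

/-- `s` is a shift inside the lanes -/
def Sh (W : ℕ) (s : ℕ → ℕ) (e : ℕ) : Prop :=
  ∀ x, ∀ k < 64, ∀ p < W, (s x).testBit (W * k + p) = (decide (e ≤ p) && x.testBit (W * k + (p - e)))

theorem sh_id (W : ℕ) {e : ℕ} (he : e = 0) : Sh W (fun x => x) e := fun x k _ p _ => by simp [he]

theorem sh_sh (W : ℕ) {c e : ℕ} (he : e = c) : Sh W (sh W c) e := fun x _ hk _ hp =>
  he ▸ testBit_sh hk hp c x

/-- the arithmetic of the codes -/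
def Ar (m m' e q P D : ℕ) : Prop :=
  ∀ J, Val J → enc J / P % 3 = J m / q % 3 ∧
    (q ≤ J m → Val (nx m m' e q J) ∧ enc (nx m m' e q J) = enc J - D ∧ tw (nx m m' e q J) ≤ tw J)

/-- the table of the numbers of lanes is antitone -/
def Anti (CT : ℕ) : Prop := ∀ x y, x ≤ y → y ≤ 127 → f8 CT y ≤ f8 CT x

theorem anti_of {CT : ℕ} (h : allLt 127 (fun x => Nat.ble (f8 CT (Nat.succ x)) (f8 CT x)) = true) :
    Anti CT := by
  intro x y hxy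
  induction y, hxy using Nat.le_induction with
  | base => exact fun _ => le_rfl
  | succ y _ ih =>
    intro hy
    exact (Nat.le_of_ble_eq_true (allLt_spec h y (by omega))).trans (ih (by omega))

theorem cd_shift {W CT e k p n a b : ℕ} {s : ℕ → ℕ} {f : Zp} (hs : Sh W s e) (hk : k < 64)
    (hk' : k < f8 CT (wtc n)) (hp : p < W) (h : ∀ q < W, Cd a b (W * k + q) (f.coeff q)) :
    Cd (s (Nat.land a (msk W CT n))) (s (Nat.land b (msk W CT n))) (W * k + p)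
      ((Polynomial.X ^ e * f).coeff p) := by
  have hm : (msk W CT n).testBit (W * k + (p - e)) = true := by
    rw [msk, testBit_ones, decide_eq_true_iff, Nat.mul_eq]
    have := Nat.mul_le_mul_left W (Nat.succ_le_of_lt hk')
    rw [Nat.mul_succ] at this
    omega
  rw [Polynomial.coeff_X_pow_mul']
  split_ifs with he
  · refine (h (p - e) (by omega)).congr ?_ ?_ <;>
      rw [hs _ k hk p hp, land_eq, Nat.testBit_and, hm] <;> simp [he]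
  · refine cd_zero ?_ ?_ <;> rw [hs _ k hk p hp] <;> simp [he]

theorem stp_zero {P n : ℕ} (D : ℕ) (s1 s2 mk : ℕ → ℕ) (R : ℕ → ℕ × ℕ) (h : n / P % 3 = 0) :
    stp P D s1 s2 mk R n = R n := by
  rw [stp, div_eq, mod_eq, h]
  rfl

theorem stp_one {P n : ℕ} (D : ℕ) (s1 s2 mk : ℕ → ℕ) (R : ℕ → ℕ × ℕ) (h : n / P % 3 = 1) :
    stp P D s1 s2 mk R n = ad (R n).1 (R n).2 (s1 (Nat.land (R (n - D)).1 (mk n)))
      (s1 (Nat.land (R (n - D)).2 (mk n))) := by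
  rw [stp, div_eq, mod_eq, h]
  simp only [frc_eq]
  rfl

theorem stp_two {P n : ℕ} (D : ℕ) (s1 s2 mk : ℕ → ℕ) (R : ℕ → ℕ × ℕ) (h : n / P % 3 = 2) :
    stp P D s1 s2 mk R n =
      ad (ad (R n).1 (R n).2 (s1 (Nat.land (R (n - D)).2 (mk n)))
          (s1 (Nat.land (R (n - D)).1 (mk n)))).1
        (ad (R n).1 (R n).2 (s1 (Nat.land (R (n - D)).2 (mk n)))
          (s1 (Nat.land (R (n - D)).1 (mk n)))).2
        (s2 (Nat.land (R (n - D - D)).1 (mk n))) (s2 (Nat.land (R (n - D - D)).2 (mk n))) := by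
  rw [stp, div_eq, mod_eq, h]
  simp only [frc_eq]
  rfl

theorem inv_step {W CT m m' e c P D : ℕ} (j : ℕ) {s1 s2 : ℕ → ℕ} {R : ℕ → ℕ × ℕ}
    {Λ : ℕ → Qp →ₗ[Zp] Zp} (hCT : Anti CT) (hm : m' = m → e = 0) (ha : Ar m m' e (3 ^ j) P D)
    (h1 : Sh W s1 (c * 3 ^ j)) (h2 : Sh W s2 (2 * (c * 3 ^ j)))
    (h : Inv' W CT R fun k J => Λ k (ph m m' e c (3 ^ j) J)) :
    Inv' W CT (stp P D s1 s2 (msk W CT) R) fun k J => Λ k (ph m m' e c (3 ^ (j + 1)) J) := by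
  intro J hJ k hk hk' p hp
  have hq : 0 < 3 ^ j := by positivity
  obtain ⟨hd, hn⟩ := ha J hJ
  have hw := wtc_enc hJ
  have hlin : ∀ (a : Zp) (y : Qp), Λ k (C a * y) = a * Λ k y := fun a y => by
    rw [C_mul', map_smul, smul_eq_mul]
  beta_reduce
  rw [pow_succ' 3 j]
  have h3 : J m / 3 ^ j % 3 = 0 ∨ J m / 3 ^ j % 3 = 1 ∨ J m / 3 ^ j % 3 = 2 := by omega
  rcases h3 with h3 | h3 | h3
  · rw [stp_zero _ _ _ _ _ (hd.trans h3), ph_zero _ _ _ h3]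
    exact h J hJ k hk hk' p hp
  · have hle : 3 ^ j ≤ J m := by
      by_contra h4
      rw [Nat.div_eq_of_lt (by omega)] at h3
      omega
    obtain ⟨hv, he, ht⟩ := hn hle
    rw [stp_one _ _ _ _ _ (hd.trans h3), ph_d1 hm c j h3, map_add, hlin, Polynomial.coeff_add, ← he]
    exact cd_ad (h J hJ k hk hk' p hp) (cd_shift h1 hk (hw ▸ hk') hp fun q hq =>
      h _ hv k hk (hk'.trans_le (hCT _ _ ht (hJ.2.trans (by omega)))) q hq)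
  · have hle : 2 * 3 ^ j ≤ J m := by
      have := Nat.div_mul_le_self (J m) (3 ^ j)
      have h5 : 2 ≤ J m / 3 ^ j := h3 ▸ Nat.mod_le _ _
      exact (Nat.mul_le_mul_right _ h5).trans this
    obtain ⟨hv, he, ht⟩ := hn (by omega)
    obtain ⟨hv', he', ht'⟩ := (ha _ hv).2 (by rw [nx_self hm]; omega)
    rw [stp_two _ _ _ _ _ (hd.trans h3), ph_d2 hm c j h3, map_add, map_sub, hlin, hlin,
      Polynomial.coeff_add, Polynomial.coeff_sub, sub_eq_add_neg, ← he, ← he']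
    exact cd_ad (cd_ad (h J hJ k hk hk' p hp) (cd_shift h1 hk (hw ▸ hk') hp fun q hq =>
      h _ hv k hk (hk'.trans_le (hCT _ _ ht (hJ.2.trans (by omega)))) q hq).neg)
      (cd_shift h2 hk (hw ▸ hk') hp fun q hq =>
        h _ hv' k hk (hk'.trans_le (hCT _ _ (ht'.trans ht) (hJ.2.trans (by omega)))) q hq)

/-- the numbers `R` represent the values of the functionals on the monomials -/
def InvL (W CT : ℕ) (R : ℕ → ℕ × ℕ) (Λ : ℕ → Qp →ₗ[Zp] Zp) : Prop :=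
  Inv' W CT R fun k J => Λ k (monomial J 1)

theorem InvL.start {W CT : ℕ} {R : ℕ → ℕ × ℕ} {Λ : ℕ → Qp →ₗ[Zp] Zp} (h : InvL W CT R Λ)
    (m m' e c : ℕ) : Inv' W CT R fun k J => Λ k (ph m m' e c (3 ^ 0) J) := by
  simp only [pow_zero, ph_one]
  exact h

theorem Inv'.stop {W CT m m' e c q : ℕ} {R : ℕ → ℕ × ℕ} {Λ : ℕ → Qp →ₗ[Zp] Zp}
    (h : Inv' W CT R fun k J => Λ k (ph m m' e c q J)) (hq : ∀ J, Val J → J m < q) :
    InvL W CT R fun k => Λ k ∘ₗ (tau m m' e c).toLinearMap := by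
  intro J hJ k hk hk' p hp
  have := h J hJ k hk hk' p hp
  beta_reduce at this
  rw [ph_top _ _ _ (hq J hJ)] at this
  exact this

theorem ar_all :
    (Ar 3 2 3 (3 ^ 0) 59049 39366 ∧ Ar 3 1 9 (3 ^ 0) 59049 56862 ∧ Ar 3 0 27 (3 ^ 0) 59049 59022 ∧
      Ar 3 0 0 (3 ^ 0) 59049 59049) ∧
    (Ar 2 1 3 (3 ^ 0) 6561 5832 ∧ Ar 2 1 3 (3 ^ 1) 19683 17496 ∧ Ar 2 0 9 (3 ^ 0) 6561 6552 ∧
      Ar 2 0 9 (3 ^ 1) 19683 19656 ∧ Ar 2 0 0 (3 ^ 0) 6561 6561 ∧ Ar 2 0 0 (3 ^ 1) 19683 19683) ∧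
    (Ar 1 0 3 (3 ^ 0) 243 240 ∧ Ar 1 0 3 (3 ^ 1) 729 720 ∧ Ar 1 0 3 (3 ^ 2) 2187 2160 ∧
      Ar 1 0 0 (3 ^ 0) 243 243 ∧ Ar 1 0 0 (3 ^ 1) 729 729 ∧ Ar 1 0 0 (3 ^ 2) 2187 2187) ∧
    (Ar 0 0 0 (3 ^ 0) 1 1 ∧ Ar 0 0 0 (3 ^ 1) 3 3 ∧ Ar 0 0 0 (3 ^ 2) 9 9 ∧ Ar 0 0 0 (3 ^ 3) 27 27 ∧
      Ar 0 0 0 (3 ^ 4) 81 81) := by
  refine ⟨⟨?_, ?_, ?_, ?_⟩, ⟨?_, ?_, ?_, ?_, ?_, ?_⟩, ⟨?_, ?_, ?_, ?_, ?_, ?_⟩, ?_, ?_, ?_, ?_, ?_⟩
  all_goals
    intro J hJ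
    have h2 := hJ.2
    refine ⟨?_, fun hq => ⟨⟨fun i hi => ?_, ?_⟩, ?_, ?_⟩⟩
    · obtain ⟨_, ⟨_, _⟩, ⟨_, _, _⟩, _, _, _, _, _⟩ := enc_digit hJ
      assumption
    · rw [nx_apply, hJ.1 i hi, if_neg (by omega), if_neg (by omega)]
    · simp only [tw, nx_apply, Nat.reduceEqDiff, if_true, if_false] at *
      omega
    · simp only [enc, tw, nx_apply, Nat.reduceEqDiff, if_true, if_false] at *
      omega
    · simp only [tw, nx_apply, Nat.reduceEqDiff, if_true, if_false] at *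
      omega

end Vale.Agent.P236C
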