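import Vale.Agent.P236C.Spec

/-!
# P236 / C : soundness of the elimination
-/

namespace Vale.Agent.P236C.El

lemma ones_eq (n : ℕ) : ones n = 2 ^ n - 1 := by
  change 1 <<< n - 1 = _
  rw [Nat.one_shiftLeft]

lemma lane (w g q : ℕ) (hw : 0 < w) : (2 ^ w * g + 1).testBit q =
    if q < w then decide (q = 0) else g.testBit (q - w) := by
  rw [Nat.testBit_two_pow_mul_add _ (Nat.one_lt_two_pow (by omega))]
  split_ifs
  · cases q <;> simp [Nat.testBit_succ]
  · rfl

lemma exists_rep (w r : ℕ) (hw : 0 < w) : ∃ g, 2 ^ (w * r) = (2 ^ w - 1) * g + 1 ∧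
    (∀ q, g.testBit q = true → w ∣ q) ∧ ∀ i < r, g.testBit (w * i) = true := by
  induction r with
  | zero => exact ⟨0, by simp, by simp, by simp⟩
  | succ r ih =>
    obtain ⟨g, h1, h2, h3⟩ := ih
    refine ⟨2 ^ w * g + 1, ?_, fun q hq => ?_, fun i hi => ?_⟩
    · obtain ⟨k, hk⟩ : ∃ k, 2 ^ w = k + 1 := ⟨2 ^ w - 1, by have := Nat.two_pow_pos w; omega⟩
      rw [Nat.mul_succ, pow_add, h1, hk, Nat.add_sub_cancel]
      ring
    · rw [lane _ _ _ hw] at hq
      split_ifs at hq with h
      · rw [of_decide_eq_true hq]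
        exact dvd_zero w
      · exact (Nat.dvd_sub_iff_left (by omega) dvd_rfl).1 (h2 _ hq)
    · rw [lane _ _ _ hw]
      cases i with
      | zero => simp [hw]
      | succ i =>
        rw [if_neg (by rw [Nat.mul_succ]; omega), Nat.mul_succ, Nat.add_sub_cancel]
        exact h3 i (by omega)

lemma rep_spec (w r : ℕ) (hw : 0 < w) : (∀ q, (rep w r).testBit q = true → w ∣ q) ∧
    ∀ i < r, (rep w r).testBit (w * i) = true := by
  obtain ⟨g, h1, h2⟩ := exists_rep w r hw
  have h : rep w r = g := by
    change ones (w * r) / ones w = g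
    rw [ones_eq, ones_eq, h1, Nat.add_sub_cancel]
    exact Nat.mul_div_cancel_left _ (by have := Nat.one_lt_two_pow (n := w) (by omega); omega)
  rwa [h]

lemma lanes_mul {w x : ℕ} (hx : x < 2 ^ w) {p : ℕ} (hp : p < w) (i : ℕ) : ∀ c : ℕ,
    (∀ q, c.testBit q = true → w ∣ q) →
      (c * x).testBit (w * i + p) = (c.testBit (w * i) && x.testBit p) := by
  have key : ∀ c : ℕ, (∀ q, c.testBit q = true → w ∣ q) →
      c % 2 ^ w = if c.testBit 0 = true then 1 else 0 := fun c hc => by
    refine Nat.eq_of_testBit_eq fun q => ?_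
    rw [Nat.testBit_mod_two_pow]
    cases q with
    | zero =>
      rw [decide_eq_true (by omega : 0 < w), Bool.true_and]
      cases c.testBit 0 <;> simp
    | succ q =>
      have h1 : (if c.testBit 0 = true then 1 else 0 : ℕ).testBit (q + 1) = false := by
        split_ifs <;> simp [Nat.testBit_succ]
      rw [h1, Bool.and_eq_false_iff, decide_eq_false_iff_not, Bool.eq_false_iff]
      by_contra! h
      exact absurd (Nat.le_of_dvd (by omega) (hc _ h.2)) (by omega)
  have key2 : ∀ (c : ℕ) (q : ℕ), (∀ q, c.testBit q = true → w ∣ q) → (c * x).testBit q =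
      if q < w then (c.testBit 0 && x.testBit q) else (c / 2 ^ w * x).testBit (q - w) :=
    fun c q hc => by
      have h1 : c * x = 2 ^ w * (c / 2 ^ w * x) + (c % 2 ^ w) * x := by
        rw [← Nat.mul_assoc, ← Nat.add_mul, Nat.div_add_mod]
      rw [h1, key c hc, Nat.testBit_two_pow_mul_add _ (by split_ifs <;> omega)]
      cases c.testBit 0 <;> simp
  induction i with
  | zero =>
    intro c hc
    rw [key2 c _ hc, Nat.mul_zero, Nat.zero_add, if_pos hp]
  | succ i ih =>
    intro c hc
    rw [key2 c _ hc, Nat.mul_succ, if_neg (by omega),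
      show w * i + w + p - w = w * i + p by omega, ih _ fun q hq => ?_, Nat.testBit_div_two_pow]
    rw [Nat.testBit_div_two_pow] at hq
    exact (Nat.dvd_add_left dvd_rfl).1 (hc _ hq)

lemma ad_spec {a b c d p : ℕ} {x y : ZMod 3} (h : Cd a b p x) (h' : Cd c d p y) :
    Cd (ad a b c d).1 (ad a b c d).2 p (x + y) := by
  obtain ⟨h1, h2⟩ := h
  obtain ⟨h3, h4⟩ := h'
  change ((b ||| d) ^^^ ((a ||| d) ^^^ (b ||| c))).testBit p = _ ∧
    ((a ||| c) ^^^ ((a ||| d) ^^^ (b ||| c))).testBit p = _
  simp only [Nat.testBit_xor, Nat.testBit_or, h1, h2, h3, h4]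
  clear h1 h2 h3 h4
  revert x y
  decide

lemma bit_eq (a j : ℕ) : Nat.beq (Nat.land (Nat.shiftRight a j) 1) 1 = a.testBit j := by
  change Nat.beq (a >>> j &&& 1) 1 = _
  rw [Nat.and_one_is_mod, Nat.testBit_eq_decide_div_mod_eq, Nat.shiftRight_eq_div_pow,
    Bool.eq_iff_iff, Nat.beq_eq, decide_eq_true_iff]

lemma indep {w r j : ℕ} (hj : j < w) (v : ℕ → ℕ → ZMod 3) (ε : ZMod 3) (hε : ε * v 0 j = 1)
    (H : LinearIndependent (ZMod 3) fun (i : Fin r) (p : Fin w) =>
      v (i + 1) p + -(v (i + 1) j * (ε * v 0 p))) :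
    LinearIndependent (ZMod 3) fun (i : Fin (r + 1)) (p : Fin w) => v i p := by
  rw [Fintype.linearIndependent_iff] at H ⊢
  intro g hg
  have h1 : ∀ p : Fin w, g 0 * v 0 p + ∑ i : Fin r, g i.succ * v (i + 1) p = 0 := fun p => by
    have := congrFun hg p
    rw [Finset.sum_apply, Fin.sum_univ_succ] at this
    exact this
  have h2 := h1 ⟨j, hj⟩
  have h3 : ∀ i : Fin r, g i.succ = 0 := H (fun i => g i.succ) (funext fun p => by
    rw [Finset.sum_apply]
    simp only [Pi.smul_apply, smul_eq_mul, mul_add, mul_neg, Finset.sum_add_distrib,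
      Finset.sum_neg_distrib, ← mul_assoc, ← Finset.sum_mul, Pi.zero_apply]
    have h4 := h1 p
    dsimp only at h2
    linear_combination h4 - (ε * v 0 p) * h2 + (g 0 * v 0 p) * hε)
  intro i
  refine Fin.cases ?_ h3 i
  simp only [h3, zero_mul, Finset.sum_const_zero, add_zero] at h2
  linear_combination ε * h2 - g 0 * hε

lemma step {w r0 A B j pa pb i p : ℕ} (hp : p < w) (hi : i < r0) (ha : pa < 2 ^ w) (hb : pb < 2 ^ w)
    {x c y : ZMod 3} (h1 : Cd A B (w * i + p) x) (h2 : Cd A B (w * i + j) c) (h3 : Cd pa pb p y) :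
    Cd (ad A B (((A >>> j &&& rep w r0) * pb) ||| ((B >>> j &&& rep w r0) * pa))
        (((A >>> j &&& rep w r0) * pa) ||| ((B >>> j &&& rep w r0) * pb))).1
      (ad A B (((A >>> j &&& rep w r0) * pb) ||| ((B >>> j &&& rep w r0) * pa))
        (((A >>> j &&& rep w r0) * pa) ||| ((B >>> j &&& rep w r0) * pb))).2 (w * i + p)
      (x + -(c * y)) := by
  obtain ⟨k1, k2⟩ := rep_spec w r0 (by omega)
  have k3 : ∀ X q, (X &&& rep w r0).testBit q = true → w ∣ q := fun X q h => by
    rw [Nat.testBit_and, Bool.and_eq_true] at h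
    exact k1 q h.2
  refine ad_spec h1 ?_
  obtain ⟨e1, e2⟩ := h2
  obtain ⟨e3, e4⟩ := h3
  rw [add_comm] at e1 e2
  simp only [Cd, Nat.testBit_or, lanes_mul ha hp i _ (k3 _), lanes_mul hb hp i _ (k3 _),
    Nat.testBit_and, Nat.testBit_shiftRight, k2 i hi, e1, e2, e3, e4]
  clear e1 e2 e3 e4
  revert c y
  decide

end Vale.Agent.P236C.El

namespace Vale.Agent.P236C

open El

/-- soundness of the elimination -/
theorem elimStmt : ElimStmt := by
  intro w r0 r
  induction r with
  | zero => exact fun _ _ _ _ _ _ _ => linearIndependent_empty_type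
  | succ r ih =>
    intro P A B v hr hv H
    change elim w (ones w) (rep w r0) (rk w (ones w) (rep w r0) r) P A B = true at H
    unfold elim at H
    simp only [bit_eq] at H
    obtain ⟨j, hj⟩ : ∃ j, Nat.land P 4095 = j := ⟨_, rfl⟩
    rw [hj] at H
    have hm : ∀ X q, (Nat.land X (ones w)).testBit q = (X.testBit q && decide (q < w)) :=
      fun X q => by
        change (X &&& ones w).testBit q = _
        rw [Nat.testBit_and, ones_eq, Nat.testBit_two_pow_sub_one]
    have hlt : ∀ X, Nat.land X (ones w) < 2 ^ w := fun X => by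
      change X &&& ones w < _
      rw [ones_eq, Nat.and_two_pow_sub_one_eq_mod]
      exact Nat.mod_lt _ (Nat.two_pow_pos w)
    have h0 : ∀ p < w, Cd (Nat.land A (ones w)) (Nat.land B (ones w)) p (v 0 p) := fun p hp => by
      have := hv 0 (by omega) p hp
      rw [Nat.mul_zero, Nat.zero_add] at this
      rw [Cd, hm, hm, decide_eq_true hp, Bool.and_true, Bool.and_true]
      exact this
    have h1 : ∀ i < r, ∀ p < w, Cd (A >>> w) (B >>> w) (w * i + p) (v (i + 1) p) :=
      fun i hi p hp => by
        have := hv (i + 1) (by omega) p hp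
        rw [Cd, Nat.testBit_shiftRight, Nat.testBit_shiftRight,
          show w + (w * i + p) = w * (i + 1) + p by ring]
        exact this
    cases ea : (Nat.land A (ones w)).testBit j with
    | true =>
      rw [ea] at H
      have hjw : j < w := by
        rw [hm, Bool.and_eq_true] at ea
        exact of_decide_eq_true ea.2
      have e : v 0 j = 1 := of_decide_eq_true ((h0 j hjw).1.symm.trans ea)
      refine indep hjw v 1 (by rw [e, one_mul]) (ih _ _ _
        (fun i p => v (i + 1) p + -(v (i + 1) j * (1 * v 0 p))) (by omega) (fun i hi p hp => ?_) H)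
      exact step hp (by omega) (hlt A) (hlt B) (h1 i hi p hp) (h1 i hi j hjw)
        (by rw [one_mul]; exact h0 p hp)
    | false =>
      rw [ea] at H
      cases eb : (Nat.land B (ones w)).testBit j with
      | false =>
        rw [eb] at H
        exact absurd H Bool.false_ne_true
      | true =>
        rw [eb] at H
        have hjw : j < w := by
          rw [hm, Bool.and_eq_true] at eb
          exact of_decide_eq_true eb.2
        have e : v 0 j = 2 := of_decide_eq_true ((h0 j hjw).2.symm.trans eb)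
        refine indep hjw v 2 (by rw [e]; decide) (ih _ _ _
          (fun i p => v (i + 1) p + -(v (i + 1) j * (2 * v 0 p))) (by omega)
          (fun i hi p hp => ?_) H)
        refine step hp (by omega) (hlt B) (hlt A) (h1 i hi p hp) (h1 i hi j hjw) ?_
        obtain ⟨e1, e2⟩ := h0 p hp
        rw [Cd, e1, e2]
        generalize v 0 p = y
        revert y
        decide

end Vale.Agent.P236C
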