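import Vale.Agent.P236C.Bits

/-!
# P236 / C : exactness from the ranks
-/

noncomputable section

namespace Vale.Agent.P236C

open Vale.Agent.P236A MvPolynomial Module

/-! ### the square of the differential -/

theorem sqStmt : SqStmt := by
  intro S N k _ red δ 𝔞 hδ hsq h𝔞 s w y hw hy
  have hx : ∀ i, (red.comp constantCoeff : Av k →+* ZMod 3) (X i) = 0 := fun i => by simp
  have e : ∀ y, XP 3 (xi0 S) y = XB 3 (red.comp constantCoeff) δ y := fun y => by
    rw [XB_P 3 hx, ← hδ]
    rfl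
  rw [e, e, XB_XB, XB_congr 3 (Gam S) Grd.nonNeg_triv (wt_red 3 red)
    (δ' := fun g g' J => if mz 3 J + (Gam S).wt g ≤ N then RR 3 δ δ g g' J else 0)
    (fun g g' J _ h => (if_pos (h.trans hw)).symm) ((hom_iff 3 _).1 hy), XB_P 3 hx,
    ← XB_zero_left 3 (red.comp constantCoeff) y, XB_P 3 hx]
  congr 1
  funext g g' J
  split_ifs with h
  · rw [map_zero]
    exact h𝔞 _ _ (hsq g g' J h)
  · rfl

/-! ### monomials -/

theorem mz_even (J : ℕ →₀ ℕ) : ∃ m : ℕ, mz 3 J = 2 * m := by
  have h : ∀ i, ∃ m : ℕ, wz 3 i = 2 * m := by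
    intro i
    induction i with
    | zero => exact ⟨1, by simp [wz]⟩
    | succ i ih =>
      obtain ⟨m, hm⟩ := ih
      refine ⟨3 * m + 1, ?_⟩
      rw [wz] at hm ⊢
      rw [pow_succ]
      push_cast at hm ⊢
      omega
  induction J using Finsupp.induction_linear with
  | zero => exact ⟨0, by simp [mz]⟩
  | add J L hJ hL =>
    obtain ⟨a, ha⟩ := hJ
    obtain ⟨b, hb⟩ := hL
    refine ⟨a + b, ?_⟩
    rw [mz] at ha hb ⊢
    rw [map_add, ha, hb]
    push_cast
    ring
  | single i n =>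
    obtain ⟨m, hm⟩ := h i
    refine ⟨n * m, ?_⟩
    rw [mz, Finsupp.weight_single, hm, nsmul_eq_mul]
    push_cast
    ring

/-- a monomial in the first four variables -/
def mon4 (a b c d : ℕ) : ℕ →₀ ℕ :=
  Finsupp.single 0 a + Finsupp.single 1 b + Finsupp.single 2 c + Finsupp.single 3 d

theorem mz_mon4 (a b c d : ℕ) :
    mz 3 (mon4 a b c d) = 2 * ((a + 4 * b + 13 * c + 40 * d : ℕ) : ℤ) := by
  simp only [mz, mon4, map_add, Finsupp.weight_single, wz, nsmul_eq_mul]
  push_cast
  ring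

theorem eq_mon4 {J : ℕ →₀ ℕ} (h : mz 3 J < 242) : J = mon4 (J 0) (J 1) (J 2) (J 3) := by
  ext i
  by_cases hi : i < 4
  · interval_cases i <;> simp [mon4]
  · have h1 : J i = 0 := by
      by_contra h2
      have h3 := Finsupp.le_weight_of_ne_zero (wz_nonneg 3) h2
      have h4 : (3 : ℤ) ^ 5 ≤ 3 ^ (i + 1) := pow_le_pow_right₀ (by norm_num) (by omega)
      rw [mz] at h
      rw [wz] at h3
      push_cast at h3
      omega
    rw [h1]
    simp only [mon4, Finsupp.add_apply]
    rw [Finsupp.single_eq_of_ne (by omega), Finsupp.single_eq_of_ne (by omega),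
      Finsupp.single_eq_of_ne (by omega), Finsupp.single_eq_of_ne (by omega)]
    rfl

/-! ### counting -/

/-- bounded sums -/
def sumLt (n : Nat) (f : Nat → Nat) : Nat :=
  Nat.rec (motive := fun _ => Nat) 0 (fun i ih => Nat.add ih (f i)) n

theorem sumLt_eq (n : ℕ) (f : ℕ → ℕ) : sumLt n f = ∑ i ∈ Finset.range n, f i := by
  induction n with
  | zero => rfl
  | succ n ih =>
    rw [Finset.sum_range_succ, ← ih]
    rfl

/-- the number of monomials of degree `D - 4` -/
def pD (D : Nat) : Nat :=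
  sumLt 3 fun d => sumLt 8 fun c =>
    Nat.div (Nat.sub (Nat.sub D (Nat.mul 13 c)) (Nat.mul 40 d)) 4

/-- the table of `pD` -/
def pT : Nat := 0x9d009900940091008e008a00850082007f007c0078007600730070006c006a006700640060005e005b0058005500540052004f004c004b00490046004300420040003d003a003900380036003300320031002f002c002b002a002800250024002300220020001f001e001d001b001a0019001800160015001400130012001200110010000f000f000e000d000c000c000b000a0009000900090008000700070007000600050005000500040003000300030003000200020002000200010001000100010000000000000000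

theorem pT_chk : (allLt 102 fun D => Nat.beq (f16 pT D) (pD D)) = true := by decide +kernel

/-- the dimension of the cell, from the table -/
def nT (G T : Nat) : Nat := sumLt 64 fun k => f16 pT (Nat.sub (Nat.add T 4) (f8 G k))

theorem cnt_chk : (allLt 26 fun s => frc (Gs.getD (Nat.succ s) 0) fun G =>
    frc (RTs.getD (Nat.succ s) 0) fun R => frc (RTs.getD s 0) fun R' => allLt 98 fun T =>
      Nat.ble (nT G T) (Nat.add (f16 R T) (f16 R' T))) = true := by decide +kernel

theorem cnt_chk0 : (allLt 97 fun T =>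
    Nat.ble (nT (Gs.getD 0 0) (Nat.succ T)) (f16 (RTs.getD 0 0) (Nat.succ T))) = true := by
  decide +kernel

theorem cnt_chk00 : nT (Gs.getD 0 0) 0 = 1 := by decide +kernel

/-- the index set of the monomials of a cell -/
def idx (s T : ℕ) : Finset (Σ _ : ℕ, Σ _ : ℕ, Σ _ : ℕ, ℕ) :=
  (Finset.range 64).sigma fun k => (Finset.range 3).sigma fun d => (Finset.range 8).sigma fun c =>
    Finset.range ((T + 4 - gw s k - 13 * c - 40 * d) / 4)

theorem card_idx (s : ℕ) {T : ℕ} (hT : T ≤ 97) : (idx s T).card = nT (Gs.getD s 0) T := by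
  rw [idx, Finset.card_sigma, nT, sumLt_eq]
  refine Finset.sum_congr rfl fun k _ => ?_
  have h := Nat.eq_of_beq_eq_true (allLt_spec pT_chk (T + 4 - gw s k) (by omega))
  refine Eq.trans ?_ h.symm
  simp only [Finset.card_sigma, Finset.card_range, pD, sumLt_eq]
  rfl

/-! ### linear algebra -/

variable (S : ℕ)

/-- the homogeneous elements -/
def HH (s : ℕ) (w : ℤ) : Submodule (ZMod 3) (Io S → PP 3) where
  carrier := {y | Hom 3 (Gam S) s w y}
  add_mem' ha hb := (hom_iff 3 _).2 (add_mem ((hom_iff 3 _).1 ha) ((hom_iff 3 _).1 hb))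
  zero_mem' := (hom_iff 3 _).2 (zero_mem _)
  smul_mem' c y hy g := ⟨(weightedHomogeneousSubmodule (ZMod 3) (wz 3) _).smul_mem c (hy g).1,
    fun h => by rw [Pi.smul_apply, (hy g).2 h, smul_zero]⟩

/-- the lift of the differential -/
def dl0 : Mat (Io S) (Av (ZMod 3)) := fun g g' J => C (xi0 S g g' J)

theorem homD_dl0 : HomD 3 (Gam S) (dl0 S) where
  wt g g' J := by
    by_cases h : xi0 S g g' J = 0
    · rw [dl0, h, map_zero]
      exact isWeightedHomogeneous_zero _ _ _
    · rw [xi0_wt h, sub_self]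
      exact isWeightedHomogeneous_C _ _
  deg g g' J h := by
    rw [dl0, not_not.1 fun h1 => h (xi0_deg h1), map_zero]
  unit g' := by rw [dl0, xi0_unit, map_zero]

theorem bar_dl0 : bar 3 (RingHom.id _) (dl0 S) = xi0 S := by
  funext g g' J
  simp [bar, dl0]

/-- the differential as a linear map -/
def LL : (Io S → PP 3) →ₗ[ZMod 3] (Io S → PP 3) := XB 3 constantCoeff (dl0 S)

theorem LL_apply (y : Io S → PP 3) : LL S y = XP 3 (xi0 S) y := by
  rw [LL, XB_P 3 fun i => by simp]
  simp [dl0]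

theorem LL_mem {s : ℕ} {w : ℤ} {y : Io S → PP 3} (hy : y ∈ HH S s w) :
    LL S y ∈ HH S (s + 1) w := by
  have h := Hom.XP 3 (Gam S) (homD_dl0 S) (RingHom.id _) hy
  rw [bar_dl0, ← LL_apply] at h
  exact h

theorem eq_zero_of_odd {s : ℕ} {w : ℤ} (hw : ¬ ∃ T : ℕ, w = 2 * T) {y : Io S → PP 3}
    (hy : Hom 3 (Gam S) s w y) : y = 0 := by
  funext g
  ext J
  by_contra h
  have h1 := (hy g).1 h
  obtain ⟨m, hm⟩ := mz_even J
  rw [mz, h1, Gam_wt] at hm
  refine hw ⟨m + gw g.1 g.2, ?_⟩
  push_cast at hm ⊢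
  omega

/-- the coordinates -/
def crd (s : Fin (S + 2)) (T : ℕ) : (Io S → PP 3) →ₗ[ZMod 3] (idx s T → ZMod 3) :=
  LinearMap.pi fun a => lcoeff (ZMod 3)
    (mon4 (T - gw s a.1.1 - 4 * a.1.2.2.2 - 13 * a.1.2.2.1 - 40 * a.1.2.1) a.1.2.2.2 a.1.2.2.1
      a.1.2.1) ∘ₗ LinearMap.proj (s, Fin.ofNat 64 a.1.1)

theorem crd_inj (s : Fin (S + 2)) {T : ℕ} (hT : T ≤ 97) :
    Function.Injective ((crd S s T).domRestrict (HH S s (2 * T))) := by
  rw [injective_iff_map_eq_zero]
  rintro ⟨y, hy⟩ h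
  apply Subtype.ext
  funext g
  obtain ⟨s', k⟩ := g
  by_cases hs : s' = s
  · subst hs
    ext J
    by_contra h0
    have h1 := (hy (s', k)).1 h0
    have h2 := mz_nonneg 3 J
    rw [← mz, Gam_wt] at h1
    push_cast at h1
    have h3 := eq_mon4 (J := J) (by omega)
    have h4 := mz_mon4 (J 0) (J 1) (J 2) (J 3)
    rw [← h3, h1] at h4
    push_cast at h4
    have h5 := congrFun h ⟨⟨k, J 3, J 2, J 1⟩, by
      simp only [idx, Finset.mem_sigma, Finset.mem_range]
      exact ⟨k.2, by omega, by omega, by omega⟩⟩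
    simp only [crd, LinearMap.domRestrict_apply, LinearMap.pi_apply, LinearMap.comp_apply,
      LinearMap.proj_apply, lcoeff_apply, Fin.ofNat_val_eq_self, Pi.zero_apply] at h5
    rw [show T - gw s' k - 4 * J 1 - 13 * J 2 - 40 * J 3 = J 0 by omega, ← h3] at h5
    exact h0 h5
  · exact (hy (s', k)).2 fun h1 => hs (Fin.ext h1)

theorem finite_HH {s : ℕ} (hs : s ≤ S + 1) {T : ℕ} (hT : T ≤ 97) :
    Module.Finite (ZMod 3) (HH S s (2 * T)) :=
  Module.Finite.of_injective _ (crd_inj S ⟨s, by omega⟩ hT)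

theorem finrank_HH {s : ℕ} (hs : s ≤ S + 1) {T : ℕ} (hT : T ≤ 97) :
    finrank (ZMod 3) (HH S s (2 * T)) ≤ nT (Gs.getD s 0) T := by
  have h := LinearMap.finrank_le_finrank_of_injective (crd_inj S ⟨s, by omega⟩ hT)
  rwa [Module.finrank_fintype_fun_eq_card, Fintype.card_coe, card_idx _ hT] at h

theorem le_rank {s : ℕ} (hs : s ≤ S) {T r : ℕ} (hT : T ≤ 97) (h : RankOK s T r) :
    r ≤ finrank (ZMod 3) ((HH S s (2 * T)).map (LL S)) := by
  obtain ⟨k, J, hw, hl⟩ := h
  have := finite_HH S (show s ≤ S + 1 by omega) hT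
  have hm : ∀ i, (bv ((⟨s, by omega⟩, k i) : Io S) (J i) : Io S → PP 3) ∈ HH S s (2 * T) := by
    intro i
    have h1 := bv_mem 3 (Gam S) (Grd.triv (ZMod 3)) (⟨s, by omega⟩, k i) (J i)
    have h2 := hw i
    rw [Gam_wt, Gam_deg] at h1
    rw [h2] at h1
    push_cast at h1
    exact (hom_iff 3 _).2 h1
  let π : (Io S → PP 3) →ₗ[ZMod 3] (Fin 64 → PP 3) :=
    LinearMap.pi fun k' => LinearMap.proj ((⟨s + 1, by omega⟩, k') : Io S)
  have h3 : LinearIndependent (ZMod 3) fun i : Fin r =>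
      (⟨LL S _, Submodule.mem_map_of_mem (hm i)⟩ : (HH S s (2 * T)).map (LL S)) := by
    refine LinearIndependent.of_comp (π ∘ₗ Submodule.subtype _) ?_
    convert hl using 1
    funext i k'
    change LL S (bv _ _) _ = _
    rw [LL, bv, XB_single]
    beta_reduce
    rw [actB_P 3 fun i => by simp]
    congr 1
    funext L
    simp [dl0, xi0]
  simpa using h3.fintype_card_le_finrank

theorem rank_null {K V : Type} [Field K] [AddCommGroup V] [Module K V] (f : V →ₗ[K] V)
    (H : Submodule K V) [Module.Finite K H] :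
    finrank K (H.map f) + finrank K (H ⊓ LinearMap.ker f : Submodule K V) = finrank K H := by
  rw [← LinearMap.finrank_range_add_finrank_ker (f.domRestrict H), LinearMap.range_domRestrict,
    LinearMap.ker_domRestrict, ← Submodule.map_comap_subtype, Submodule.finrank_map_subtype_eq]

theorem exactStmt : ExactStmt := by
  intro S T0 hS hT0 hr hsq
  constructor
  · intro w y hw hy h0
    by_cases h : ∃ T : ℕ, w = 2 * T
    · obtain ⟨T, rfl⟩ := h
      have hT : T ≤ 97 := by omega
      have := finite_HH S (Nat.zero_le _) hT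
      have h1 := finrank_HH S (Nat.zero_le _) hT
      cases T with
      | zero =>
        have h2 : (Pi.single (Gam S).g0 (C 1) : Io S → PP 3) ∈ HH S 0 (2 * ((0 : ℕ) : ℤ)) := by
          have h3 := single_mem (Gam S) (𝒢 := gA 3 (ZMod 3)) (Gam S).g0 (gA 3 (ZMod 3)).one_mem
          rw [(Gam S).deg_g0, (Gam S).wt_g0] at h3
          exact (hom_iff 3 _).2 h3
        have h3 : (Pi.single (Gam S).g0 (C 1) : Io S → PP 3) ≠ 0 := by simp
        have h4 := Submodule.eq_of_le_of_finrank_le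
          ((Submodule.span_singleton_le_iff_mem _ _).2 h2)
          (by rw [finrank_span_singleton h3, ← cnt_chk00]; exact h1)
        have h5 : y ∈ HH S 0 (2 * ((0 : ℕ) : ℤ)) := hy
        rw [← h4, Submodule.mem_span_singleton] at h5
        obtain ⟨c, rfl⟩ := h5
        exact ⟨c, by rw [← Pi.single_smul, smul_eq_C_mul, map_one, mul_one]⟩
      | succ T =>
        have h2 := le_rank S (Nat.zero_le _) hT (hr 0 (Nat.zero_le _) _ (by omega))
        have h3 := rank_null (LL S) (HH S 0 (2 * ((T + 1 : ℕ) : ℤ)))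
        have h4 : nT (Gs.getD 0 0) (T + 1) ≤ rT 0 (T + 1) :=
          Nat.le_of_ble_eq_true (allLt_spec cnt_chk0 T (by omega))
        have h5 : (HH S 0 (2 * ((T + 1 : ℕ) : ℤ)) ⊓ LinearMap.ker (LL S)) = ⊥ :=
          Submodule.finrank_eq_zero.1 (by omega)
        have h6 : y ∈ (HH S 0 (2 * ((T + 1 : ℕ) : ℤ)) ⊓ LinearMap.ker (LL S)) :=
          ⟨hy, by rw [SetLike.mem_coe, LinearMap.mem_ker, LL_apply, h0]⟩
        rw [h5, Submodule.mem_bot] at h6
        exact ⟨0, by rw [h6, map_zero, Pi.single_zero]⟩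
    · exact ⟨0, by rw [eq_zero_of_odd S h hy, map_zero, Pi.single_zero]⟩
  · intro s w y hs hw hy h0
    by_cases h : ∃ T : ℕ, w = 2 * T
    · obtain ⟨T, rfl⟩ := h
      have hT : T ≤ 97 := by omega
      have := finite_HH S (show s + 1 ≤ S + 1 by omega) hT
      have h1 := finrank_HH S (show s + 1 ≤ S + 1 by omega) hT
      have h2 := le_rank S hs hT (hr _ hs _ (by omega))
      have h2' := le_rank S (show s ≤ S by omega) hT (hr _ (by omega) _ (by omega))
      have h3 := rank_null (LL S) (HH S (s + 1) (2 * (T : ℤ)))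
      have h4 : nT (Gs.getD (s + 1) 0) T ≤ rT (s + 1) T + rT s T := by
        have h5 := allLt_spec cnt_chk s (by omega)
        rw [frc_eq, frc_eq, frc_eq] at h5
        exact Nat.le_of_ble_eq_true (allLt_spec h5 T (by omega))
      have h5 : (HH S s (2 * (T : ℤ))).map (LL S) ≤
          HH S (s + 1) (2 * (T : ℤ)) ⊓ LinearMap.ker (LL S) := by
        rintro _ ⟨z, hz, rfl⟩
        refine ⟨LL_mem S hz, ?_⟩
        rw [SetLike.mem_coe, LinearMap.mem_ker, LL_apply, LL_apply]
        exact hsq s _ z hw hz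
      have h6 : y ∈ (HH S (s + 1) (2 * (T : ℤ)) ⊓ LinearMap.ker (LL S)) :=
        ⟨hy, by rw [SetLike.mem_coe, LinearMap.mem_ker, LL_apply, h0]⟩
      rw [← Submodule.eq_of_le_of_finrank_le h5 (by omega)] at h6
      obtain ⟨z, hz, rfl⟩ := h6
      exact ⟨z, hz, (LL_apply S z).symm⟩
    · refine ⟨0, (HH S s w).zero_mem, ?_⟩
      rw [← LL_apply, map_zero, eq_zero_of_odd S h hy]

end Vale.Agent.P236C
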