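import Vale.Agent.P236C.Dp

/-!
# P236 / C : soundness of the initial values
-/

noncomputable section

namespace Vale.Agent.P236C

open Vale.Agent.P236A Vale.Agent.P236B MvPolynomial Finsupp

/-- there is a valid entry with the sign `σ` at the position `x` -/
def Ex (G G' W Bs wn σ cnt e x : ℕ) : Prop :=
  ∃ i < cnt, f8 G (e >>> (16 * i) % 64) + wn = f8 G' (e >>> (16 * i) / 64 % 64) ∧
    e >>> (16 * i) / 4096 % 2 = σ ∧
    x = W * (e >>> (16 * i) % 64) + f16 Bs (e >>> (16 * i) / 64 % 64)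

theorem ex_succ {G G' W Bs wn σ cnt e x : ℕ} : Ex G G' W Bs wn σ (cnt + 1) e x ↔
    (f8 G (e % 64) + wn = f8 G' (e / 64 % 64) ∧ e / 4096 % 2 = σ ∧
      x = W * (e % 64) + f16 Bs (e / 64 % 64)) ∨ Ex G G' W Bs wn σ cnt (e >>> 16) x := by
  constructor
  · rintro ⟨i, hi, h⟩
    cases i with
    | zero => exact Or.inl h
    | succ i =>
      refine Or.inr ⟨i, by omega, ?_⟩
      rwa [← Nat.shiftRight_add, show 16 + 16 * i = 16 * (i + 1) by ring]
  · rintro (h | ⟨i, hi, h⟩)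
    · exact ⟨0, by omega, h⟩
    · refine ⟨i + 1, by omega, ?_⟩
      rwa [← Nat.shiftRight_add, show 16 + 16 * i = 16 * (i + 1) by ring] at h

theorem bld_succ (G G' W Bs wn cnt e A B : ℕ) : bld G G' W Bs wn (cnt + 1) e A B =
    if f8 G (e % 64) + wn = f8 G' (e / 64 % 64) then
      if e / 4096 % 2 = 1 then
        bld G G' W Bs wn cnt (e >>> 16) A (B ||| 2 ^ (W * (e % 64) + f16 Bs (e / 64 % 64)))
      else bld G G' W Bs wn cnt (e >>> 16) (A ||| 2 ^ (W * (e % 64) + f16 Bs (e / 64 % 64))) B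
    else bld G G' W Bs wn cnt (e >>> 16) A B := by
  have e1 : Nat.land e 63 = e % 64 := Nat.and_two_pow_sub_one_eq_mod e 6
  have e2 : Nat.land (Nat.shiftRight e 6) 63 = e / 64 % 64 := by
    rw [land_eq, shr_eq, Nat.shiftRight_eq_div_pow]
    exact Nat.and_two_pow_sub_one_eq_mod _ 6
  have e3 : Nat.land (Nat.shiftRight e 12) 1 = e / 4096 % 2 := by
    rw [land_eq, shr_eq, Nat.shiftRight_eq_div_pow, Nat.and_one_is_mod]
  have h : bld G G' W Bs wn (cnt + 1) e A B =
      Bool.rec (motive := fun _ => ℕ × ℕ) (bld G G' W Bs wn cnt (e >>> 16) A B)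
        (Bool.rec (motive := fun _ => ℕ × ℕ)
          (bld G G' W Bs wn cnt (e >>> 16) (A ||| 1 <<< (W * Nat.land e 63 +
            f16 Bs (Nat.land (Nat.shiftRight e 6) 63))) B)
          (bld G G' W Bs wn cnt (e >>> 16) A (B ||| 1 <<< (W * Nat.land e 63 +
            f16 Bs (Nat.land (Nat.shiftRight e 6) 63))))
          (Nat.beq (Nat.land (Nat.shiftRight e 12) 1) 1))
        (Nat.beq (f8 G (Nat.land e 63) + wn) (f8 G' (Nat.land (Nat.shiftRight e 6) 63))) := rfl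
  rw [h, e1, e2, e3, Nat.one_shiftLeft]
  split_ifs with h1 h2
  · rw [h1, h2, Nat.beq_refl, Nat.beq_refl]
  · rw [h1, Nat.beq_refl, show e / 4096 % 2 = 0 by omega]
    rfl
  · rw [show Nat.beq _ _ = false from Bool.eq_false_iff.2 fun h3 => h1 (Nat.eq_of_beq_eq_true h3)]

theorem testBit_or_pow (A y x : ℕ) : (A ||| 2 ^ y).testBit x = true ↔ A.testBit x = true ∨ x = y := by
  rw [Nat.testBit_or, Bool.or_eq_true, Nat.testBit_two_pow, decide_eq_true_iff, eq_comm (a := y)]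

theorem bld_spec (G G' W Bs wn cnt e A B : ℕ) : ∃ A' B' : ℕ,
    bld G G' W Bs wn cnt e A B = (A' ^^^ (A' &&& B'), B' ^^^ (A' &&& B')) ∧
    (∀ x, A'.testBit x = true ↔ A.testBit x = true ∨ Ex G G' W Bs wn 0 cnt e x) ∧
    ∀ x, B'.testBit x = true ↔ B.testBit x = true ∨ Ex G G' W Bs wn 1 cnt e x := by
  induction cnt generalizing e A B with
  | zero => exact ⟨A, B, rfl, fun x => by simp [Ex], fun x => by simp [Ex]⟩
  | succ cnt ih =>
    rw [bld_succ]
    split_ifs with h1 h2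
    · obtain ⟨A', B', h, hA, hB⟩ := ih (e >>> 16) A (B ||| 2 ^ (W * (e % 64) + f16 Bs (e / 64 % 64)))
      refine ⟨A', B', h, fun x => ?_, fun x => ?_⟩
      · rw [hA, ex_succ]
        simp [h2]
      · rw [hB, ex_succ, testBit_or_pow]
        simp [h1, h2, or_assoc]
    · obtain ⟨A', B', h, hA, hB⟩ := ih (e >>> 16) (A ||| 2 ^ (W * (e % 64) + f16 Bs (e / 64 % 64))) B
      have h3 : e / 4096 % 2 = 0 := by omega
      refine ⟨A', B', h, fun x => ?_, fun x => ?_⟩
      · rw [hA, ex_succ, testBit_or_pow]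
        simp [h1, h3, or_assoc]
      · rw [hB, ex_succ]
        simp [h3]
    · obtain ⟨A', B', h, hA, hB⟩ := ih (e >>> 16) A B
      refine ⟨A', B', h, fun x => ?_, fun x => ?_⟩
      · rw [hA, ex_succ]
        simp [h1]
      · rw [hB, ex_succ]
        simp [h1]

theorem cd_of_iff {A B x : ℕ} {P Q : Prop} [Decidable P] [Decidable Q]
    (hA : A.testBit x = true ↔ P) (hB : B.testBit x = true ↔ Q) :
    Cd (A ^^^ (A &&& B)) (B ^^^ (A &&& B)) x ((if P then 1 else 0) - if Q then 1 else 0) := by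
  have h1 : A.testBit x = decide P := by
    by_cases h : P <;> simp [h] at hA ⊢ <;> exact hA
  have h2 : B.testBit x = decide Q := by
    by_cases h : Q <;> simp [h] at hB ⊢ <;> exact hB
  constructor <;> rw [Nat.testBit_xor, Nat.testBit_and, h1, h2] <;> by_cases h : P <;>
    by_cases h' : Q <;> simp only [h, h', if_true, if_false] <;> decide

/-- the offsets of the generators are increasing and smaller than the width of a lane -/
def Base (W Bs : ℕ) : Prop :=
  (∀ k k', k < k' → k' < 64 → f16 Bs k < f16 Bs k') ∧ ∀ k < 64, f16 Bs k < W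

theorem base_of {W Bs : ℕ}
    (h : allLt 63 (fun k => Nat.ble (Nat.succ (f16 Bs k)) (f16 Bs (Nat.succ k))) = true)
    (h' : Nat.ble (Nat.succ (f16 Bs 63)) W = true) : Base W Bs := by
  have h1 : ∀ k k', k < k' → k' < 64 → f16 Bs k < f16 Bs k' := by
    intro k k' hk
    induction k', hk using Nat.le_induction with
    | base => exact fun hk => Nat.le_of_ble_eq_true (allLt_spec h k (by omega))
    | succ y _ ih =>
      exact fun hy => (ih (by omega)).trans (Nat.le_of_ble_eq_true (allLt_spec h y (by omega)))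
  have h2 : f16 Bs 63 < W := Nat.le_of_ble_eq_true h'
  refine ⟨h1, fun k hk => ?_⟩
  rcases Nat.lt_succ_iff_lt_or_eq.1 hk with h3 | rfl
  · exact (h1 k 63 h3 (by omega)).trans h2
  · exact h2

theorem Base.inj {W Bs k k' : ℕ} (h : Base W Bs) (hk : k < 64) (hk' : k' < 64)
    (e : f16 Bs k = f16 Bs k') : k = k' := by
  rcases lt_trichotomy k k' with h1 | h1 | h1
  · exact absurd e (h.1 k k' h1 hk').ne
  · exact h1
  · exact absurd e (h.1 k' k h1 hk).ne'

theorem lane_inj {W k p k' p' : ℕ} (hp : p < W) (hp' : p' < W) (h : W * k + p = W * k' + p') :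
    k = k' ∧ p = p' := by
  have h1 : (W * k + p) / W = k := by rw [Nat.mul_add_div (by omega), Nat.div_eq_of_lt hp, add_zero]
  have h2 : (W * k' + p') / W = k' := by
    rw [Nat.mul_add_div (by omega), Nat.div_eq_of_lt hp', add_zero]
  have h3 : k = k' := by rw [← h1, h, h2]
  subst h3
  omega

theorem ex_iff {E O G G' W Bs wn σ n k p : ℕ} (hB : Base W Bs) (hσ : σ < 2) (hk : k < 64)
    (hp : p < W) : Ex G G' W Bs wn σ (entN E O n) (entE E O n) (W * k + p) ↔
      ∃ k' < 64, f16 Bs k' = p ∧ f8 G k + wn = f8 G' k' ∧ HasE E O n (k + 64 * k' + 4096 * σ) := by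
  constructor
  · rintro ⟨i, hi, h1, h2, h3⟩
    obtain ⟨h4, h5⟩ := lane_inj hp (hB.2 _ (Nat.mod_lt _ (by omega))) h3
    exact ⟨_, Nat.mod_lt _ (by omega), h5.symm, h4 ▸ h1, i, hi, by omega⟩
  · rintro ⟨k', hk', h1, h2, i, hi, h3⟩
    have e1 : entE E O n >>> (16 * i) % 64 = k := by omega
    have e2 : entE E O n >>> (16 * i) / 64 % 64 = k' := by omega
    exact ⟨i, hi, by rw [e1, e2, h2], by omega, by rw [e1, e2, h1]⟩

/-- the initial functionals -/
def Lam (s Bs k : ℕ) : Qp →ₗ[Zp] Zp :=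
  lin fun L => ∑ k' : Fin 64, Polynomial.X ^ f16 Bs k' * Polynomial.C (xi s k k' L)

theorem inv_ini {s W Bs : ℕ} (CT : ℕ) (hB : Base W Bs) :
    InvL W CT (ini (Es.getD s 0) (Os.getD s 0) (Gs.getD s 0) (Gs.getD (s + 1) 0) W Bs)
      (Lam s Bs) := by
  classical
  intro J hJ k hk _ p hp
  obtain ⟨A, B, h, hA, hB'⟩ := bld_spec (Gs.getD s 0) (Gs.getD (s + 1) 0) W Bs (wtc (enc J))
    (entN (Es.getD s 0) (Os.getD s 0) (enc J)) (entE (Es.getD s 0) (Os.getD s 0) (enc J)) 0 0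
  rw [ini, h]
  have h1 := hA (W * k + p)
  have h2 := hB' (W * k + p)
  rw [Nat.zero_testBit, ex_iff hB (by omega) hk hp, wtc_enc hJ] at h1 h2
  simp only [Bool.false_eq_true, false_or] at h1 h2
  have h3 := cd_of_iff h1 h2
  convert h3 using 1
  beta_reduce
  rw [Lam, lin_one, Polynomial.finsetSum_coeff]
  simp only [Polynomial.X_pow_mul_C, Polynomial.coeff_C_mul_X_pow]
  by_cases h4 : ∃ k' < 64, f16 Bs k' = p
  · obtain ⟨k', hk', h4⟩ := h4
    have h5 : ∀ σ, (∃ k'' < 64, f16 Bs k'' = p ∧ f8 (Gs.getD s 0) k + tw J =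
        f8 (Gs.getD (s + 1) 0) k'' ∧ HasE (Es.getD s 0) (Os.getD s 0) (enc J) (k + 64 * k'' + σ)) ↔
        gw s k + tw J = gw (s + 1) k' ∧
          HasE (Es.getD s 0) (Os.getD s 0) (enc J) (k + 64 * k' + σ) := fun σ =>
      ⟨fun ⟨k'', hk'', e, h6⟩ => hB.inj hk'' hk' (e.trans h4.symm) ▸ h6, fun h6 => ⟨k', hk', h4, h6⟩⟩
    rw [Finset.sum_eq_single (⟨k', hk'⟩ : Fin 64) (fun b _ hb => if_neg fun e =>
      hb (Fin.ext (hB.inj b.2 hk' (e.symm.trans h4.symm)))) (by simp), if_pos h4.symm, xi,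
      mz_eq hJ.1]
    simp only [h5]
    by_cases h6 : gw s k + tw J = gw (s + 1) k'
    · rw [if_pos (by push_cast; omega), cf]
      simp [h6]
    · rw [if_neg (by push_cast; omega)]
      simp [h6]
  · rw [Finset.sum_eq_zero fun (b : Fin 64) _ => if_neg fun (e : p = f16 Bs b) => h4 ⟨b, b.2, e.symm⟩,
      if_neg fun ⟨k', hk', e, _⟩ => h4 ⟨k', hk', e⟩, if_neg fun ⟨k', hk', e, _⟩ => h4 ⟨k', hk', e⟩,
      sub_zero]

theorem lam_tot (s Bs k c3 c4 : ℕ) {J : ℕ →₀ ℕ} (h : ∀ i, 4 ≤ i → J i = 0) :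
    Lam s Bs k (tot c3 c4 (monomial J 1)) = ∑ k' : Fin 64, Polynomial.X ^ f16 Bs k' *
      kap c3 c4 (actP 3 (xi s k k') (monomial J 1)) := by
  rw [tot_monomial c3 c4 h, Lam, lin_sum]
  refine Finset.sum_congr rfl fun k' _ => ?_
  rw [lin_mul, actP, map_lin]
  simp only [kap, eval₂Hom_C]

end Vale.Agent.P236C
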