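import Mathlib.Logic.Basic

/-!
# P236 / C : kernel programs for the rank certificates of the minimal resolution

Vectors over `𝔽_3` are pairs of natural numbers (the bits of the entries `1` and of the entries `-1`).
-/

noncomputable section

namespace Vale.Agent.P236C

/-- a field of 8 bits -/
def f8 (x i : Nat) : Nat := Nat.land (Nat.shiftRight x (Nat.mul 8 i)) 255

/-- a field of 16 bits -/
def f16 (x i : Nat) : Nat := Nat.land (Nat.shiftRight x (Nat.mul 16 i)) 65535

/-- a field of 20 bits -/
def f20 (x i : Nat) : Nat := Nat.land (Nat.shiftRight x (Nat.mul 20 i)) 1048575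

/-- the number with `n` ones -/
def ones (n : Nat) : Nat := Nat.sub (Nat.shiftLeft 1 n) 1

/-- evaluation of an argument -/
def frc {α : Type} (x : Nat) (k : Nat → α) : α :=
  Nat.rec (motive := fun _ => α) (k Nat.zero) (fun j _ => k (Nat.succ j)) x

/-- bounded conjunction -/
def allLt (n : Nat) (f : Nat → Bool) : Bool :=
  Nat.rec (motive := fun _ => Bool) true (fun i ih => Bool.rec false ih (f i)) n

/-- the degree of the monomial with the code `n` -/
def wtc (n : Nat) : Nat :=
  Nat.add (Nat.add (Nat.mod n 243) (Nat.mul 4 (Nat.mod (Nat.div n 243) 27)))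
    (Nat.add (Nat.mul 13 (Nat.mod (Nat.div n 6561) 9)) (Nat.mul 40 (Nat.div n 59049)))

/-- one block of the table of entries -/
def leaf (E O key : Nat) : Nat :=
  Nat.land (Nat.shiftRight E (Nat.mul 16 (f20 O key)))
    (ones (Nat.mul 16 (Nat.sub (f20 O (Nat.succ key)) (f20 O key))))

/-- the number of entries for the code `n` -/
def entN (E O n : Nat) : Nat :=
  frc (Nat.div n 243) fun key =>
    Nat.sub (f16 (leaf E O key) (Nat.succ (Nat.mod n 243))) (f16 (leaf E O key) (Nat.mod n 243))

/-- the entries for the code `n`, 16 bits each -/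
def entE (E O n : Nat) : Nat :=
  frc (Nat.div n 243) fun key =>
    Nat.shiftRight (leaf E O key) (Nat.mul 16 (f16 (leaf E O key) (Nat.mod n 243)))

end Vale.Agent.P236C
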