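import Vale.Agent.P236C.Ker

/-!
# P236 / C : the kernel program for the rank certificates
-/

noncomputable section

namespace Vale.Agent.P236C

/-- addition of vectors -/
def ad (a b c d : Nat) : Nat × Nat :=
  (fun t => (Nat.xor (Nat.lor b d) t, Nat.xor (Nat.lor a c) t))
    (Nat.xor (Nat.lor a d) (Nat.lor b c))

/-- the loop over the entries -/
def bld (G G' W Bs wn cnt : Nat) : Nat → Nat → Nat → Nat × Nat :=
  Nat.rec (motive := fun _ => Nat → Nat → Nat → Nat × Nat)
    (fun _ A B => (Nat.xor A (Nat.land A B), Nat.xor B (Nat.land A B)))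
    (fun _ ih e A B =>
      (fun k k' =>
        Bool.rec (motive := fun _ => Nat × Nat) (ih (Nat.shiftRight e 16) A B)
          ((fun bit =>
            Bool.rec (motive := fun _ => Nat × Nat) (ih (Nat.shiftRight e 16) (Nat.lor A bit) B)
              (ih (Nat.shiftRight e 16) A (Nat.lor B bit))
              (Nat.beq (Nat.land (Nat.shiftRight e 12) 1) 1))
            (Nat.shiftLeft 1 (Nat.add (Nat.mul W k) (f16 Bs k'))))
          (Nat.beq (Nat.add (f8 G k) wn) (f8 G' k')))
      (Nat.land e 63) (Nat.land (Nat.shiftRight e 6) 63)) cnt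

/-- the initial values -/
def ini (E O G G' W Bs n : Nat) : Nat × Nat :=
  bld G G' W Bs (wtc n) (entN E O n) (entE E O n) 0 0

/-- the truncation mask -/
def msk (W CT n : Nat) : Nat := ones (Nat.mul W (f8 CT (wtc n)))

/-- the substitution for one digit of one exponent -/
def stp (P D : Nat) (s1 s2 mk : Nat → Nat) (R : Nat → Nat × Nat) (n : Nat) : Nat × Nat :=
  Nat.rec (motive := fun _ => Nat × Nat)
    (Prod.rec (motive := fun _ => Nat × Nat) (fun a b => (a, b)) (R n))
    (fun j _ =>
      Prod.rec (motive := fun _ => Nat × Nat) (fun a b =>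
        frc (Nat.sub n D) fun m =>
          Prod.rec (motive := fun _ => Nat × Nat) (fun c d =>
            Nat.rec (motive := fun _ => Nat × Nat)
              (ad a b (s1 (Nat.land c (mk n))) (s1 (Nat.land d (mk n))))
              (fun _ _ =>
                Prod.rec (motive := fun _ => Nat × Nat) (fun a' b' =>
                  frc (Nat.sub m D) fun m' =>
                    Prod.rec (motive := fun _ => Nat × Nat) (fun e f =>
                      ad a' b' (s2 (Nat.land e (mk n))) (s2 (Nat.land f (mk n)))) (R m'))
                  (ad a b (s1 (Nat.land d (mk n))) (s1 (Nat.land c (mk n))))) j) (R m)) (R n))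
    (Nat.mod (Nat.div n P) 3)

/-- the number with the bits `0, w, 2 w, …, (r - 1) w` -/
def rep (w r : Nat) : Nat := Nat.div (ones (Nat.mul w r)) (ones w)

/-- the mask for a shift inside lanes -/
def lm (W c : Nat) : Nat := Nat.mul (rep W 64) (Nat.sub (Nat.shiftLeft 1 W) (Nat.shiftLeft 1 c))

/-- a shift inside lanes -/
def sh (W c x : Nat) : Nat := Nat.land (Nat.shiftLeft x c) (lm W c)

/-- one step of the elimination -/
def elim (w m R : Nat) (k : Nat → Nat → Nat → Bool) (P A B : Nat) : Bool :=
  (fun a b A' B' j =>
    (fun c1 c2 =>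
      (fun (f : Nat → Nat → Bool) =>
        Bool.rec (motive := fun _ => Bool)
          (Bool.rec (motive := fun _ => Bool) false (f b a)
            (Nat.beq (Nat.land (Nat.shiftRight b j) 1) 1))
          (f a b) (Nat.beq (Nat.land (Nat.shiftRight a j) 1) 1))
      (fun pa pb =>
        Prod.rec (motive := fun _ => Bool) (fun u v => k (Nat.shiftRight P 12) u v)
          (ad A' B' (Nat.lor (Nat.mul c1 pb) (Nat.mul c2 pa))
            (Nat.lor (Nat.mul c1 pa) (Nat.mul c2 pb)))))
    (Nat.land (Nat.shiftRight A' j) R) (Nat.land (Nat.shiftRight B' j) R))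
  (Nat.land A m) (Nat.land B m) (Nat.shiftRight A w) (Nat.shiftRight B w) (Nat.land P 4095)

/-- the elimination -/
def rk (w m R r : Nat) : Nat → Nat → Nat → Bool :=
  Nat.rec (motive := fun _ => Nat → Nat → Nat → Bool) (fun _ _ _ => true)
    (fun _ ih P A B => elim w m R ih P A B) r

/-- the rows of the matrix of one cell -/
def gat (R : Nat → Nat × Nat) (G CT W w T mW mw : Nat) (K : Nat → Nat → Bool) (r : Nat) :
    Nat → Nat → Nat → Bool :=
  Nat.rec (motive := fun _ => Nat → Nat → Nat → Bool) (fun _ A B => K A B)
    (fun _ ih E A B =>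
      (fun k =>
        frc (Nat.land (Nat.shiftRight E 6) 262143) fun n =>
          Bool.rec (motive := fun _ => Bool) false
            (Bool.rec (motive := fun _ => Bool) false
              (Prod.rec (motive := fun _ => Bool) (fun a b =>
                (fun la lb =>
                  Prod.rec (motive := fun _ => Bool) (fun u v =>
                    (fun A' B' =>
                      (fun z => Bool.rec (motive := fun _ => Bool) z z (Nat.beq A' B'))
                        (ih (Nat.shiftRight E 24) A' B'))
                    (Nat.lor (Nat.shiftLeft A w) u) (Nat.lor (Nat.shiftLeft B w) v))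
                  (ad (Nat.land la mw) (Nat.land lb mw) (Nat.shiftRight la w) (Nat.shiftRight lb w)))
                (Nat.land (Nat.shiftRight a (Nat.mul W k)) mW)
                (Nat.land (Nat.shiftRight b (Nat.mul W k)) mW)) (R n))
              (Nat.ble (Nat.succ k) (f8 CT (wtc n))))
            (Nat.beq (Nat.add (f8 G k) (wtc n)) T))
      (Nat.land E 63)) r

/-- the check of one cell -/
def cell (R : Nat → Nat × Nat) (G CT W T r w E P : Nat) : Bool :=
  Bool.rec (motive := fun _ => Bool) false
    (gat R G CT W w T (ones W) (ones w) (rk w (ones w) (rep w r) r P) r E 0 0)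
    (Nat.ble W (Nat.mul 2 w))

/-- the check of consecutive cells -/
def cells (R : Nat → Nat × Nat) (G CT W RT : Nat) (l : List (Nat × Nat × Nat)) : Nat → Bool :=
  List.rec (motive := fun _ => Nat → Bool) (fun _ => true)
    (fun x _ ih T =>
      Bool.rec (motive := fun _ => Bool) false (ih (Nat.succ T))
        (cell R G CT W T (f16 RT T) x.1 x.2.1 x.2.2)) l

/-- the whole check -/
def run (E O G G' RT W Bs CT c3 c4 : Nat) (l : List (Nat × Nat × Nat)) (T : Nat) : Bool :=
  (fun (mk : Nat → Nat) =>
    Bool.rec (motive := fun _ => Bool) false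
      (Bool.rec (motive := fun _ => Bool) false
        (Bool.rec (motive := fun _ => Bool) false
          (cells
            (stp 81 81 (fun x => x) (fun x => x) mk
            (stp 27 27 (fun x => x) (fun x => x) mk
            (stp 9 9 (fun x => x) (fun x => x) mk
            (stp 3 3 (fun x => x) (fun x => x) mk
            (stp 1 1 (fun x => x) (fun x => x) mk
            (stp 2187 2187 (sh W 9) (sh W 18) mk
            (stp 729 729 (sh W 3) (sh W 6) mk
            (stp 243 243 (sh W 1) (sh W 2) mk
            (stp 2187 2160 (fun x => x) (fun x => x) mk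
            (stp 729 720 (fun x => x) (fun x => x) mk
            (stp 243 240 (fun x => x) (fun x => x) mk
            (stp 19683 19683 (sh W (Nat.mul c3 3)) (sh W (Nat.mul c3 6)) mk
            (stp 6561 6561 (sh W c3) (sh W (Nat.mul c3 2)) mk
            (stp 19683 19656 (sh W 3) (sh W 6) mk
            (stp 6561 6552 (sh W 1) (sh W 2) mk
            (stp 19683 17496 (fun x => x) (fun x => x) mk
            (stp 6561 5832 (fun x => x) (fun x => x) mk
            (stp 59049 59049 (sh W c4) (sh W (Nat.mul c4 2)) mk
            (stp 59049 59022 (sh W c3) (sh W (Nat.mul c3 2)) mk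
            (stp 59049 56862 (sh W 1) (sh W 2) mk
            (stp 59049 39366 (fun x => x) (fun x => x) mk
            (ini E O G G' W Bs)))))))))))))))))))))) G CT W RT l T)
          (allLt 127 fun x => Nat.ble (f8 CT (Nat.succ x)) (f8 CT x)))
        (allLt 63 fun k => Nat.ble (Nat.succ (f16 Bs k)) (f16 Bs (Nat.succ k))))
      (Nat.ble (Nat.succ (f16 Bs 63)) W))
  (msk W CT)

end Vale.Agent.P236C
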