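import Vale.Agent.P236C.Bits

/-!
# P236 / C : the coproduct as a composition of elementary substitutions
-/

noncomputable section

namespace Vale.Agent.P236C

open Vale.Agent.P236A Vale.Agent.P236B MvPolynomial Finsupp

/-- the polynomials in the packing variable -/
abbrev Zp : Type := Polynomial (ZMod 3)

/-- the polynomials over `Zp` -/
abbrev Qp : Type := MvPolynomial ℕ Zp

/-- the new value of the variable `m` -/
def nv (m m' e c : ℕ) : Qp := X m + C (Polynomial.X ^ c) * X m' ^ e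

/-- the elementary substitution -/
def tau (m m' e c : ℕ) : Qp →ₐ[Zp] Qp := aeval fun i => if i = m then nv m m' e c else X i

/-- the substitution in the low digits of the exponent -/
def ph (m m' e c q : ℕ) (J : ℕ →₀ ℕ) : Qp :=
  nv m m' e c ^ (J m % q) * monomial (J - single m (J m % q)) 1

/-- the shifted exponent -/
def nx (m m' e q : ℕ) (J : ℕ →₀ ℕ) : ℕ →₀ ℕ := J - single m q + single m' (q * e)

theorem nx_apply (m m' e q : ℕ) (J : ℕ →₀ ℕ) (i : ℕ) :
    nx m m' e q J i = J i - (if m = i then q else 0) + if m' = i then q * e else 0 := by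
  simp only [nx, Finsupp.add_apply, Finsupp.tsub_apply, single_apply]

theorem mon_add (K : ℕ →₀ ℕ) (m n : ℕ) :
    (monomial (K + single m n) 1 : Qp) = monomial K 1 * X m ^ n := by
  rw [X_pow_eq_monomial, monomial_mul, mul_one]

theorem ph_one (m m' e c : ℕ) (J : ℕ →₀ ℕ) : ph m m' e c 1 J = monomial J 1 := by
  simp [ph, Nat.mod_one]

theorem tau_monomial_of {m : ℕ} (m' e c : ℕ) {K : ℕ →₀ ℕ} (h : K m = 0) :
    tau m m' e c (monomial K 1) = monomial K 1 := by
  rw [tau, aeval_monomial, map_one, one_mul, monomial_eq, C_1, one_mul]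
  refine Finsupp.prod_congr fun i hi => ?_
  rw [if_neg]
  rintro rfl
  exact (Finsupp.mem_support_iff.1 hi) h

theorem tau_X_self (m m' e c : ℕ) : tau m m' e c (X m) = nv m m' e c := by simp [tau]

theorem tau_X_ne {m i : ℕ} (m' e c : ℕ) (h : i ≠ m) : tau m m' e c (X i) = X i := by
  simp [tau, h]

theorem ph_top {m q : ℕ} (m' e c : ℕ) {J : ℕ →₀ ℕ} (h : J m < q) :
    ph m m' e c q J = tau m m' e c (monomial J 1) := by
  have h1 : J = (J - single m (J m)) + single m (J m) := by
    ext i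
    simp only [Finsupp.add_apply, Finsupp.tsub_apply, single_apply]
    split_ifs with hi
    · subst hi
      omega
    · omega
  rw [ph, Nat.mod_eq_of_lt h]
  conv_rhs => rw [h1, mon_add, map_mul, map_pow, tau_X_self,
    tau_monomial_of m' e c (by simp)]
  rw [mul_comm]

instance : CharP Qp 3 := MvPolynomial.instCharP ℕ Zp 3

theorem nv_pow (m m' e c j : ℕ) :
    nv m m' e c ^ 3 ^ j = X m ^ 3 ^ j + C (Polynomial.X ^ (c * 3 ^ j)) * X m' ^ (3 ^ j * e) := by
  rw [nv, add_pow_char_pow, mul_pow, ← map_pow, ← pow_mul, ← pow_mul, mul_comm e]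

theorem mod_three_mul (n q : ℕ) : n % (3 * q) = n % q + q * (n / q % 3) := by
  rw [mul_comm 3 q, Nat.mod_mul]

theorem ph_zero {m q : ℕ} (m' e c : ℕ) {J : ℕ →₀ ℕ} (h : J m / q % 3 = 0) :
    ph m m' e c (3 * q) J = ph m m' e c q J := by
  rw [ph, ph, mod_three_mul, h, mul_zero, add_zero]

theorem nx_self {m m' e : ℕ} (hm : m' = m → e = 0) (q : ℕ) (J : ℕ →₀ ℕ) :
    nx m m' e q J m = J m - q := by
  rw [nx_apply, if_pos rfl]
  split_ifs with h
  · rw [hm h, mul_zero, add_zero]
  · rw [add_zero]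

theorem ph_eq {m m' e c q r : ℕ} {J K : ℕ →₀ ℕ} (hr : J m % q = r) (h : J = K + single m r) :
    ph m m' e c q J = nv m m' e c ^ r * monomial K 1 := by
  rw [ph, hr, h, add_tsub_cancel_right]

theorem ph_d1 {m m' e : ℕ} (hm : m' = m → e = 0) (c j : ℕ) {J : ℕ →₀ ℕ}
    (h : J m / 3 ^ j % 3 = 1) :
    ph m m' e c (3 * 3 ^ j) J = ph m m' e c (3 ^ j) J +
      C (Polynomial.X ^ (c * 3 ^ j)) * ph m m' e c (3 ^ j) (nx m m' e (3 ^ j) J) := by
  have hn := nv_pow m m' e c j
  generalize 3 ^ j = q at *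
  have h0 := mod_three_mul (J m) q
  rw [h, mul_one] at h0
  have hle : J m % q + q ≤ J m := h0 ▸ Nat.mod_le _ _
  have h3 : nx m m' e q J m % q = J m % q := by
    rw [nx_self hm, ← Nat.mod_eq_sub_mod (by omega)]
  generalize hr : J m % q = r at *
  obtain ⟨K, hK⟩ : ∃ K, J = K + single m (r + q) := ⟨J - single m (r + q), by
    ext i
    simp only [Finsupp.add_apply, Finsupp.tsub_apply, single_apply]
    split_ifs with hi
    · subst hi
      omega
    · omega⟩
  rw [ph_eq h0 hK, ph_eq (K := K + single m q) hr (by rw [hK, single_add]; abel),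
    ph_eq (K := K + single m' (q * e)) h3 (by
      rw [nx, hK, single_add, ← add_assoc, add_tsub_cancel_right]; abel),
    mon_add, mon_add, pow_add, hn]
  ring

theorem ph_d2 {m m' e : ℕ} (hm : m' = m → e = 0) (c j : ℕ) {J : ℕ →₀ ℕ}
    (h : J m / 3 ^ j % 3 = 2) :
    ph m m' e c (3 * 3 ^ j) J = ph m m' e c (3 ^ j) J -
      C (Polynomial.X ^ (c * 3 ^ j)) * ph m m' e c (3 ^ j) (nx m m' e (3 ^ j) J) +
      C (Polynomial.X ^ (2 * (c * 3 ^ j))) *
        ph m m' e c (3 ^ j) (nx m m' e (3 ^ j) (nx m m' e (3 ^ j) J)) := by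
  have hn := nv_pow m m' e c j
  generalize c * 3 ^ j = c' at *
  generalize 3 ^ j = q at *
  have h0 := mod_three_mul (J m) q
  rw [h] at h0
  have hle : J m % q + q * 2 ≤ J m := h0 ▸ Nat.mod_le _ _
  have h3 : nx m m' e q J m % q = J m % q := by
    rw [nx_self hm, ← Nat.mod_eq_sub_mod (by omega)]
  have h4 : nx m m' e q (nx m m' e q J) m % q = J m % q := by
    rw [nx_self hm, ← Nat.mod_eq_sub_mod (by rw [nx_self hm]; omega), h3]
  generalize hr : J m % q = r at *
  obtain ⟨K, hK⟩ : ∃ K, J = K + single m (r + q * 2) := ⟨J - single m (r + q * 2), by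
    ext i
    simp only [Finsupp.add_apply, Finsupp.tsub_apply, single_apply]
    split_ifs with hi
    · subst hi
      omega
    · omega⟩
  have hJ : J = K + single m r + single m q + single m q := by
    rw [hK, mul_two, single_add, single_add]
    abel
  have h5 : nx m m' e q J = K + single m r + single m' (q * e) + single m q := by
    rw [nx, hJ, add_tsub_cancel_right]
    abel
  have h6 : (3 : Qp) = 0 := CharP.cast_eq_zero Qp 3
  rw [ph_eq h0 hK, ph_eq (K := K + single m q + single m q) hr (by rw [hJ]; abel),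
    ph_eq (K := K + single m q + single m' (q * e)) h3 (by rw [h5]; abel),
    ph_eq (K := K + single m' (q * e) + single m' (q * e)) h4 (by
      rw [nx, h5, add_tsub_cancel_right]; abel),
    mon_add, mon_add, mon_add, mon_add, mon_add, mon_add, pow_add, pow_mul, hn, two_mul c',
    pow_add Polynomial.X, map_mul]
  linear_combination (nv m m' e c ^ r * monomial K 1 * X m ^ q * C (Polynomial.X ^ c') *
    X m' ^ (q * e)) * h6

/-- the evaluation of the left hand factor -/
def kap (c3 c4 : ℕ) : PP 3 →+* Zp :=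
  eval₂Hom Polynomial.C fun i =>
    if i = 0 then 1 else if i = 1 then Polynomial.X else if i = 2 then Polynomial.X ^ c3 else
      if i = 3 then Polynomial.X ^ c4 else 0

/-- the composition of the substitutions -/
def tot (c3 c4 : ℕ) (y : Qp) : Qp :=
  tau 3 2 3 0 (tau 3 1 9 1 (tau 3 0 27 c3 (tau 3 0 0 c4 (tau 2 1 3 0 (tau 2 0 9 1 (tau 2 0 0 c3
    (tau 1 0 3 0 (tau 1 0 0 1 (tau 0 0 0 0 y)))))))))

theorem mon_four {B : Type} [CommRing B] {J : ℕ →₀ ℕ} (h : ∀ i, 4 ≤ i → J i = 0) :
    (monomial J 1 : MvPolynomial ℕ B) = X 0 ^ J 0 * X 1 ^ J 1 * X 2 ^ J 2 * X 3 ^ J 3 := by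
  simp only [X_pow_eq_monomial, monomial_mul, mul_one]
  congr 2
  ext i
  simp only [Finsupp.add_apply, single_apply]
  rcases i with _ | _ | _ | _ | i
  · simp
  · simp
  · simp
  · simp
  · simp [h (i + 4) (by omega)]

theorem tot_monomial (c3 c4 : ℕ) {J : ℕ →₀ ℕ} (h : ∀ i, 4 ≤ i → J i = 0) :
    tot c3 c4 (monomial J 1) = map (kap c3 c4) (RP 3 (monomial J 1)) := by
  have h0 : tot c3 c4 (X 0) = map (kap c3 c4) (RP 3 (X 0)) := by
    simp [tot, tau, nv, RP, kap, Finset.sum_range_succ, hat]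
  have h1 : tot c3 c4 (X 1) = map (kap c3 c4) (RP 3 (X 1)) := by
    simp [tot, tau, nv, RP, kap, Finset.sum_range_succ, hat]
  have h2 : tot c3 c4 (X 2) = map (kap c3 c4) (RP 3 (X 2)) := by
    simp [tot, tau, nv, RP, kap, Finset.sum_range_succ, hat]
  have h3 : tot c3 c4 (X 3) = map (kap c3 c4) (RP 3 (X 3)) := by
    simp [tot, tau, nv, RP, kap, Finset.sum_range_succ, hat]
  rw [mon_four h, mon_four h]
  simp only [map_mul, map_pow, ← h0, ← h1, ← h2, ← h3, tot]

end Vale.Agent.P236C
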