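import Vale.Agent.P236C.Gen
import Vale.Agent.P236C.Run
import Vale.Agent.P236A.Wt

/-!
# P236 / C : interface of the rank certificates
-/

noncomputable section

namespace Vale.Agent.P236C

open Vale.Agent.P236A MvPolynomial

/-- the bits at the position `p` represent `c` -/
def Cd (A B p : ℕ) (c : ZMod 3) : Prop :=
  A.testBit p = decide (c = 1) ∧ B.testBit p = decide (c = 2)

/-- the differential has rank at least `r` in the cell `(s, T)` -/
def RankOK (s T r : ℕ) : Prop :=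
  ∃ (k : Fin r → Fin 64) (J : Fin r → ℕ →₀ ℕ),
    (∀ i, mz 3 (J i) + (2 * gw s (k i) : ℕ) = (2 * T : ℕ)) ∧
    LinearIndependent (ZMod 3) fun (i : Fin r) (k' : Fin 64) =>
      actP 3 (xi s (k i) k') (monomial (J i) 1)

/-- the ranks -/
def rT (s T : ℕ) : ℕ := f16 (RTs.getD s 0) T

/-- the square of the differential vanishes in weights `≤ N` -/
def SqP (S : ℕ) (N : ℤ) : Prop :=
  ∀ (s : ℕ) (w : ℤ) (y : Io S → PP 3), w ≤ N → Hom 3 (Gam S) s w y →
    XP 3 (xi0 S) (XP 3 (xi0 S) y) = 0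

/-- soundness of the elimination -/
def ElimStmt : Prop :=
  ∀ (w r0 r P A B : ℕ) (v : ℕ → ℕ → ZMod 3), r ≤ r0 →
    (∀ i < r, ∀ p < w, Cd A B (w * i + p) (v i p)) → rk w (ones w) (rep w r0) r P A B = true →
    LinearIndependent (ZMod 3) fun (i : Fin r) (p : Fin w) => v i p

/-- exactness from the ranks -/
def ExactStmt : Prop :=
  ∀ (S T0 : ℕ), S ≤ 26 → T0 ≤ 97 → (∀ s ≤ S, ∀ T ≤ T0, RankOK s T (rT s T)) →
    SqP S (2 * T0 + 1) → ExactP 3 (Gam S) (xi0 S) S (2 * T0 + 1)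

/-- the square of the reduced differential -/
def SqStmt : Prop :=
  ∀ (S : ℕ) (N : ℤ) (k : Type) [CommRing k] (red : k →+* ZMod 3) (δ : Mat (Io S) (Av k))
    (𝔞 : ℕ → Ideal (Av k)), bar 3 red δ = xi0 S → SqIn 3 (Gam S) δ 𝔞 N →
    (∀ s, ∀ a ∈ 𝔞 s, red (constantCoeff a) = 0) → SqP S N

end Vale.Agent.P236C
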